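import Vale.Agent.P155.X877.Squares
import Vale.Agent.P155.FinalStmt

/-!
# P155: every bounded simply connected domain has Temperleyan approximations
-/

namespace Vale.Agent.P155.X877

open Topology Filter

variable {Ω : Set ℂ}

/-- the region of a Temperleyan polygon -/
theorem region_eq (T : Temp) {δ : ℝ} (hδ : 0 < δ) :
    region δ 0 T.faceSet = reg (2 * δ) {f | T.γ.inside f} := by
  ext z
  constructor
  · intro hz
    simp only [region, Set.mem_iUnion] at hz
    obtain ⟨v, ⟨f, hf, h1, h2, h3, h4⟩, s, t, hs0, hs1, ht0, ht1, rfl⟩ := hz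
    have h1' : 2 * (f.1 : ℝ) ≤ v.1 := by exact_mod_cast h1
    have h2' : (v.1 : ℝ) ≤ 2 * f.1 + 1 := by exact_mod_cast h2
    have h3' : 2 * (f.2 : ℝ) ≤ v.2 := by exact_mod_cast h3
    have h4' : (v.2 : ℝ) ≤ 2 * f.2 + 1 := by exact_mod_cast h4
    refine ⟨f, hf, ?_, ?_, ?_, ?_⟩
    · simp
      nlinarith
    · simp
      nlinarith
    · simp
      nlinarith
    · simp
      nlinarith
  · rintro ⟨f, hf, h1, h2, h3, h4⟩
    have key : ∀ (x : ℝ) (p : ℤ), 2 * δ * p ≤ x → x ≤ 2 * δ * (p + 1) →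
        ∃ (k : ℤ) (s : ℝ), 2 * p ≤ k ∧ k ≤ 2 * p + 1 ∧ 0 ≤ s ∧ s ≤ 1 ∧ x = δ * (k + s) := by
      intro x p h1 h2
      rcases le_total x (2 * δ * p + δ) with h | h
      · refine ⟨2 * p, (x - 2 * δ * p) / δ, le_rfl, by omega, by
          apply div_nonneg <;> linarith, by rw [div_le_one hδ]; linarith, ?_⟩
        push_cast
        field_simp
        ring
      · refine ⟨2 * p + 1, (x - 2 * δ * p - δ) / δ, by omega, le_rfl, by
          apply div_nonneg <;> linarith, by rw [div_le_one hδ]; linarith, ?_⟩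
        push_cast
        field_simp
        ring
    obtain ⟨k, s, k1, k2, s1, s2, e1⟩ := key z.re f.1 h1 h2
    obtain ⟨m, t, m1, m2, t1, t2, e2⟩ := key z.im f.2 h3 h4
    simp only [region, Set.mem_iUnion]
    refine ⟨(k, m), ⟨f, hf, k1, k2, m1, m2⟩, s, t, s1, s2, t1, t2, ?_⟩
    apply Complex.ext
    · simp [e1]
    · simp [e2]

/-- a point of `s` close to a point off `s` is close to the boundary -/
theorem exists_frontier {s : Set ℂ} {x y : ℂ} (hx : x ∈ s) (hy : y ∉ s) :
    ∃ w ∈ frontier s, dist x w ≤ dist x y := by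
  obtain ⟨w, hw, hd⟩ := exists_mem_frontier_infDist_compl_eq_dist hx
    (fun h => hy (by rw [h]; exact Set.mem_univ _))
  exact ⟨w, hw, by rw [← hd]; exact Metric.infDist_le_dist_of_mem hy⟩

/-- compact subsets of a connected open set are in connected sets at positive distance from the
complement -/
theorem exists_conn (ho : IsOpen Ω) (hc : IsPathConnected Ω) {z0 : ℂ} (hz0 : z0 ∈ Ω) {K : Set ℂ}
    (hK : IsCompact K) (hKΩ : K ⊆ Ω) : ∃ (D : Set ℂ) (r : ℝ), 0 < r ∧ IsPreconnected D ∧ z0 ∈ D ∧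
      K ⊆ D ∧ ∀ p ∈ D, Metric.ball p r ⊆ Ω := by
  -- compact sets
  have hcomp : ∀ C : Set ℂ, IsCompact C → C ⊆ Ω → ∃ r > 0, ∀ p ∈ C, Metric.ball p r ⊆ Ω := by
    intro C hC hCΩ
    obtain ⟨r, hr, h⟩ := hC.exists_thickening_subset_open ho hCΩ
    refine ⟨r, hr, fun p hp => ?_⟩
    exact (Metric.ball_subset_thickening hp r).trans h
  have key : ∃ (D : Set ℂ) (r : ℝ), 0 < r ∧ IsPreconnected D ∧ z0 ∈ D ∧
      K ⊆ D ∧ ∀ p ∈ D, Metric.ball p r ⊆ Ω := by
    refine hK.induction_on (p := fun K => ∃ (D : Set ℂ) (r : ℝ), 0 < r ∧ IsPreconnected D ∧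
      z0 ∈ D ∧ K ⊆ D ∧ ∀ p ∈ D, Metric.ball p r ⊆ Ω) ?_ ?_ ?_ ?_
    · obtain ⟨r, hr, h⟩ := Metric.isOpen_iff.1 ho z0 hz0
      exact ⟨{z0}, r, hr, isPreconnected_singleton, rfl, Set.empty_subset _,
        fun p hp => by rw [Set.mem_singleton_iff.1 hp]; exact h⟩
    · rintro s t hst ⟨D, r, hr, h1, h2, h3, h4⟩
      exact ⟨D, r, hr, h1, h2, hst.trans h3, h4⟩
    · rintro s t ⟨D, r, hr, h1, h2, h3, h4⟩ ⟨D', r', hr', h1', h2', h3', h4'⟩
      refine ⟨D ∪ D', min r r', lt_min hr hr', h1.union z0 h2 h2' h1', Or.inl h2,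
        Set.union_subset_union h3 h3', ?_⟩
      rintro p (hp | hp)
      · exact (Metric.ball_subset_ball (min_le_left _ _)).trans (h4 p hp)
      · exact (Metric.ball_subset_ball (min_le_right _ _)).trans (h4' p hp)
    · intro x hx
      obtain ⟨γ, hγ⟩ := hc.joinedIn z0 hz0 x (hKΩ hx)
      obtain ⟨ρ, hρ, hρΩ⟩ := Metric.isOpen_iff.1 ho x (hKΩ hx)
      set C : Set ℂ := Set.range γ ∪ Metric.closedBall x (ρ / 2) with hC
      have hCc : IsCompact C := (isCompact_range γ.continuous).union (isCompact_closedBall _ _)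
      have hCΩ : C ⊆ Ω := by
        rintro w (⟨t, rfl⟩ | hw)
        · exact hγ t
        · apply hρΩ
          rw [Metric.mem_closedBall] at hw
          rw [Metric.mem_ball]
          linarith
      obtain ⟨r, hr, h⟩ := hcomp C hCc hCΩ
      refine ⟨Metric.closedBall x (ρ / 2), mem_nhdsWithin_of_mem_nhds
        (Metric.closedBall_mem_nhds x (by positivity)), C, r, hr, ?_, Or.inl ⟨0, γ.source⟩,
        Set.subset_union_right, h⟩
      refine (isPreconnected_range γ.continuous).union x ⟨1, γ.target⟩ ?_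
        (convex_closedBall x _).isPreconnected
      exact Metric.mem_closedBall_self (by positivity)
  exact key

/-- **Every bounded simply connected domain has a Temperleyan approximation.** -/
theorem exists_approx (ho : IsOpen Ω) (hbd : Bornology.IsBounded Ω) (hne : Ω.Nonempty)
    (hsc : SimplyConnectedSpace Ω) : Nonempty (TempApprox Ω) := by
  obtain ⟨z0, hz0⟩ := hne
  obtain ⟨r0, hr0, hball0⟩ := Metric.isOpen_iff.1 ho z0 hz0
  have hpc : IsPathConnected Ω := isPathConnected_iff_pathConnectedSpace.2 inferInstance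
  -- the meshes
  set δ : ℕ → ℝ := fun n => r0 / 60 / ((n : ℝ) + 1) with hδ
  have hδ0 : ∀ n, 0 < δ n := fun n => by positivity
  have hδ1 : ∀ n, δ n ≤ r0 / 60 := by
    intro n
    have h1 : (1 : ℝ) ≤ (n : ℝ) + 1 := by
      have : (0 : ℝ) ≤ n := Nat.cast_nonneg n
      linarith
    exact div_le_self (by positivity) h1
  have hmesh : Tendsto δ atTop (𝓝 0) := by
    have h1 : Tendsto (fun n : ℕ => (n : ℝ) + 1) atTop atTop :=
      tendsto_atTop_add_const_right _ _ tendsto_natCast_atTop_atTop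
    exact h1.const_div_atTop _
  -- the polygons
  have hex : ∀ n, ∃ γ : LatCycle, reg (6 * δ n / 3) {f | γ.inside f} ⊆ Ω ∧
      (∀ D : Set ℂ, IsPreconnected D → z0 ∈ D → (∀ p ∈ D, Metric.ball p (20 * (6 * δ n)) ⊆ Ω) →
        D ⊆ interior (reg (6 * δ n / 3) {f | γ.inside f})) ∧
      ∀ x ∈ frontier (reg (6 * δ n / 3) {f | γ.inside f}), ∃ y, y ∉ Ω ∧
        dist x y < 40 * (6 * δ n) := by
    intro n
    refine exists_poly ho hbd hsc (z0 := z0) (ℓ := 6 * δ n) (by have := hδ0 n; linarith) ?_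
    refine (Metric.ball_subset_ball ?_).trans hball0
    have := hδ1 n
    linarith
  choose γ hγ using hex
  set T : ℕ → Temp := fun n => { γ := γ n, i0 := 0 } with hT
  have hreg : ∀ n, region (δ n) 0 (T n).faceSet = reg (6 * δ n / 3) {f | (γ n).inside f} := by
    intro n
    rw [region_eq (T n) (hδ0 n)]
    congr 1
    ring
  have hsub : ∀ n, region (δ n) 0 (T n).faceSet ⊆ Ω := by
    intro n
    rw [hreg]
    exact (hγ n).1
  have hint : ∀ D : Set ℂ, ∀ r : ℝ, 0 < r → IsPreconnected D → z0 ∈ D →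
      (∀ p ∈ D, Metric.ball p r ⊆ Ω) → ∀ᶠ n in atTop,
      D ⊆ interior (region (δ n) 0 (T n).faceSet) := by
    intro D r hr hD hzD hDr
    filter_upwards [hmesh.eventually (gt_mem_nhds (show 0 < r / 120 by positivity))] with n hn
    rw [hreg]
    refine (hγ n).2.1 D hD hzD fun p hp => (Metric.ball_subset_ball ?_).trans (hDr p hp)
    linarith
  have hcara : ∀ K ⊆ Ω, IsCompact K → ∀ᶠ n in atTop,
      K ⊆ interior (region (δ n) 0 (T n).faceSet) := by
    intro K hKΩ hK
    obtain ⟨D, r, hr, h1, h2, h3, h4⟩ := exists_conn ho hpc hz0 hK hKΩ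
    exact (hint D r hr h1 h2 h4).mono fun n hn => h3.trans hn
  have hbdd : ∃ C : ℝ, ∀ n : ℕ, ‖(fun _ : ℕ => (0 : ℂ)) n‖ ≤ C := ⟨0, fun n => by simp⟩
  refine ⟨⟨T, δ, fun _ => 0, hδ0, hmesh, hbdd, hcara, ?_, ?_, ?_, ?_⟩⟩
  · intro U _ _ _ h
    obtain ⟨n, hn⟩ := h.exists
    exact hn.trans (hsub n)
  · intro ε hε
    filter_upwards [hmesh.eventually (gt_mem_nhds (show 0 < ε / 240 by positivity))] with n hn
    intro x hx
    have hcl : IsClosed (region (δ n) 0 (T n).faceSet) := by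
      rw [hreg]
      exact isClosed_reg _ LatCycle.inside_finite
    have hxΩ : x ∈ Ω := hsub n (hcl.frontier_subset hx)
    rw [hreg] at hx
    obtain ⟨y, hy, hd⟩ := (hγ n).2.2 x hx
    obtain ⟨w, hw, hdw⟩ := exists_frontier hxΩ hy
    rw [Metric.mem_thickening_iff]
    exact ⟨w, hw, by linarith⟩
  · intro ε hε
    have hfc : IsCompact (frontier Ω) :=
      Metric.isCompact_of_isClosed_isBounded isClosed_frontier (hbd.closure.subset
        frontier_subset_closure)
    obtain ⟨t, ht, hcov⟩ := hfc.elim_nhds_subcover (fun x => Metric.ball x (ε / 8))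
      (fun x _ => Metric.ball_mem_nhds x (by positivity))
    -- points of `Ω` close to the centres
    have hy : ∀ x ∈ t, ∃ y ∈ Ω, dist x y < ε / 8 := by
      intro x hx
      obtain ⟨y, hy, hd⟩ := Metric.mem_closure_iff.1 (frontier_subset_closure (ht x hx)) (ε / 8)
        (by positivity)
      exact ⟨y, hy, hd⟩
    have hev : ∀ᶠ n in atTop, ∀ x ∈ t, ∃ y ∈ region (δ n) 0 (T n).faceSet, dist x y < ε / 8 := by
      rw [Filter.eventually_all_finset]
      intro x hx
      obtain ⟨y, hyΩ, hd⟩ := hy x hx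
      filter_upwards [hcara {y} (Set.singleton_subset_iff.2 hyΩ) isCompact_singleton] with n hn
      exact ⟨y, interior_subset (hn rfl), hd⟩
    filter_upwards [hev] with n hn
    intro x hx
    have hxΩ : x ∉ Ω := by
      rw [ho.frontier_eq] at hx
      exact hx.2
    obtain ⟨c, hc, hxc⟩ := Set.mem_iUnion₂.1 (hcov hx)
    obtain ⟨y, hy, hd⟩ := hn c hc
    have hxR : x ∉ region (δ n) 0 (T n).faceSet := fun h => hxΩ (hsub n h)
    obtain ⟨w, hw, hdw⟩ := exists_frontier hy hxR
    rw [Metric.mem_thickening_iff]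
    refine ⟨w, hw, ?_⟩
    rw [Metric.mem_ball] at hxc
    have h1 := dist_triangle x y w
    have h2 := dist_triangle x c y
    have h3 := dist_comm y x
    linarith
  · intro ε hε
    exact Eventually.of_forall fun n => (hsub n).trans (Metric.self_subset_thickening hε Ω)

end Vale.Agent.P155.X877
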