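import Vale.Agent.P155.X877.Fill

/-!
# P155, existence of Temperleyan approximations: removing the pinched vertices

Every block is divided into nine faces; the corner faces of the blocks off `A` are added when both
neighbouring blocks are in `A`.
-/

namespace Vale.Agent.P155.X877

open Relation

/-- the refinement of the set of blocks `A` -/
def Ref (A : Set Pt) : Set Pt := {f | (f.1 / 3, f.2 / 3) ∈ A ∨
  (f.1 % 3 = 0 ∧ f.2 % 3 = 0 ∧ (f.1 / 3 - 1, f.2 / 3) ∈ A ∧ (f.1 / 3, f.2 / 3 - 1) ∈ A) ∨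
  (f.1 % 3 = 2 ∧ f.2 % 3 = 0 ∧ (f.1 / 3 + 1, f.2 / 3) ∈ A ∧ (f.1 / 3, f.2 / 3 - 1) ∈ A) ∨
  (f.1 % 3 = 0 ∧ f.2 % 3 = 2 ∧ (f.1 / 3 - 1, f.2 / 3) ∈ A ∧ (f.1 / 3, f.2 / 3 + 1) ∈ A) ∨
  (f.1 % 3 = 2 ∧ f.2 % 3 = 2 ∧ (f.1 / 3 + 1, f.2 / 3) ∈ A ∧ (f.1 / 3, f.2 / 3 + 1) ∈ A)}

variable {A : Set Pt}

theorem mem_ref (p q r s : ℤ) (hr : 0 ≤ r) (hr' : r < 3) (hs : 0 ≤ s) (hs' : s < 3) :
    ((3 * p + r, 3 * q + s) : Pt) ∈ Ref A ↔ (p, q) ∈ A ∨
      (r = 0 ∧ s = 0 ∧ (p - 1, q) ∈ A ∧ (p, q - 1) ∈ A) ∨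
      (r = 2 ∧ s = 0 ∧ (p + 1, q) ∈ A ∧ (p, q - 1) ∈ A) ∨
      (r = 0 ∧ s = 2 ∧ (p - 1, q) ∈ A ∧ (p, q + 1) ∈ A) ∨
      (r = 2 ∧ s = 2 ∧ (p + 1, q) ∈ A ∧ (p, q + 1) ∈ A) := by
  have e1 : (3 * p + r) / 3 = p := by omega
  have e2 : (3 * q + s) / 3 = q := by omega
  have e3 : (3 * p + r) % 3 = r := by omega
  have e4 : (3 * q + s) % 3 = s := by omega
  unfold Ref
  simp only [Set.mem_ofPred_eq, e1, e2, e3, e4]

theorem mem00 (p q : ℤ) : ((3 * p, 3 * q) : Pt) ∈ Ref A ↔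
    (p, q) ∈ A ∨ ((p - 1, q) ∈ A ∧ (p, q - 1) ∈ A) := by
  have := mem_ref (A := A) p q 0 0 (by norm_num) (by norm_num) (by norm_num) (by norm_num)
  simpa using this

theorem mem10 (p q : ℤ) : ((3 * p + 1, 3 * q) : Pt) ∈ Ref A ↔ (p, q) ∈ A := by
  have := mem_ref (A := A) p q 1 0 (by norm_num) (by norm_num) (by norm_num) (by norm_num)
  simpa using this

theorem mem20 (p q : ℤ) : ((3 * p + 2, 3 * q) : Pt) ∈ Ref A ↔
    (p, q) ∈ A ∨ ((p + 1, q) ∈ A ∧ (p, q - 1) ∈ A) := by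
  have := mem_ref (A := A) p q 2 0 (by norm_num) (by norm_num) (by norm_num) (by norm_num)
  simpa using this

theorem mem01 (p q : ℤ) : ((3 * p, 3 * q + 1) : Pt) ∈ Ref A ↔ (p, q) ∈ A := by
  have := mem_ref (A := A) p q 0 1 (by norm_num) (by norm_num) (by norm_num) (by norm_num)
  simpa using this

theorem mem11 (p q : ℤ) : ((3 * p + 1, 3 * q + 1) : Pt) ∈ Ref A ↔ (p, q) ∈ A := by
  have := mem_ref (A := A) p q 1 1 (by norm_num) (by norm_num) (by norm_num) (by norm_num)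
  simpa using this

theorem mem21 (p q : ℤ) : ((3 * p + 2, 3 * q + 1) : Pt) ∈ Ref A ↔ (p, q) ∈ A := by
  have := mem_ref (A := A) p q 2 1 (by norm_num) (by norm_num) (by norm_num) (by norm_num)
  simpa using this

theorem mem02 (p q : ℤ) : ((3 * p, 3 * q + 2) : Pt) ∈ Ref A ↔
    (p, q) ∈ A ∨ ((p - 1, q) ∈ A ∧ (p, q + 1) ∈ A) := by
  have := mem_ref (A := A) p q 0 2 (by norm_num) (by norm_num) (by norm_num) (by norm_num)
  simpa using this

theorem mem12 (p q : ℤ) : ((3 * p + 1, 3 * q + 2) : Pt) ∈ Ref A ↔ (p, q) ∈ A := by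
  have := mem_ref (A := A) p q 1 2 (by norm_num) (by norm_num) (by norm_num) (by norm_num)
  simpa using this

theorem mem22 (p q : ℤ) : ((3 * p + 2, 3 * q + 2) : Pt) ∈ Ref A ↔
    (p, q) ∈ A ∨ ((p + 1, q) ∈ A ∧ (p, q + 1) ∈ A) := by
  have := mem_ref (A := A) p q 2 2 (by norm_num) (by norm_num) (by norm_num) (by norm_num)
  simpa using this

theorem exists_coord (x : ℤ) : ∃ p : ℤ, x = 3 * p ∨ x = 3 * p + 1 ∨ x = 3 * p + 2 :=
  ⟨x / 3, by omega⟩

theorem pred0 (p : ℤ) : 3 * p - 1 = 3 * (p - 1) + 2 := by ring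
theorem pred1 (p : ℤ) : 3 * p + 1 - 1 = 3 * p := by ring
theorem pred2 (p : ℤ) : 3 * p + 2 - 1 = 3 * p + 1 := by ring
theorem succ0 (p : ℤ) : 3 * p + 2 + 1 = 3 * (p + 1) := by ring

theorem noPinch_ref : NoPinch (Ref A) := by
  intro x y
  obtain ⟨p, rfl | rfl | rfl⟩ := exists_coord x <;> obtain ⟨q, rfl | rfl | rfl⟩ := exists_coord y <;>
    simp only [pred0, pred1, pred2, mem00, mem10, mem20, mem01, mem11, mem21, mem02, mem12, mem22,
      sub_add_cancel] <;> tauto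

/-- the central face of a block -/
def cen (b : Pt) : Pt := (3 * b.1 + 1, 3 * b.2 + 1)

/-- the middle faces of the blocks of `B` and only these are in `S` -/
structure Mid (B S : Set Pt) : Prop where
  m11 : ∀ p q : ℤ, (p, q) ∈ B → ((3 * p + 1, 3 * q + 1) : Pt) ∈ S
  m10 : ∀ p q : ℤ, (p, q) ∈ B → ((3 * p + 1, 3 * q) : Pt) ∈ S
  m01 : ∀ p q : ℤ, (p, q) ∈ B → ((3 * p, 3 * q + 1) : Pt) ∈ S
  m21 : ∀ p q : ℤ, (p, q) ∈ B → ((3 * p + 2, 3 * q + 1) : Pt) ∈ S
  m12 : ∀ p q : ℤ, (p, q) ∈ B → ((3 * p + 1, 3 * q + 2) : Pt) ∈ S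

theorem mid_ref : Mid A (Ref A) where
  m11 p q h := (mem11 p q).2 h
  m10 p q h := (mem10 p q).2 h
  m01 p q h := (mem01 p q).2 h
  m21 p q h := (mem21 p q).2 h
  m12 p q h := (mem12 p q).2 h

theorem mid_compl : Mid Aᶜ (Ref A)ᶜ where
  m11 p q h := fun h' => h ((mem11 p q).1 h')
  m10 p q h := fun h' => h ((mem10 p q).1 h')
  m01 p q h := fun h' => h ((mem01 p q).1 h')
  m21 p q h := fun h' => h ((mem21 p q).1 h')
  m12 p q h := fun h' => h ((mem12 p q).1 h')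

theorem adjR (x y : ℤ) : Adj (x, y) (x + 1, y) := adj_cases.2 (Or.inl rfl)
theorem adjL (x y : ℤ) : Adj (x + 1, y) (x, y) := adj_symm (adjR x y)
theorem adjU (x y : ℤ) : Adj (x, y) (x, y + 1) := adj_cases.2 (Or.inr (Or.inr (Or.inl rfl)))
theorem adjD (x y : ℤ) : Adj (x, y + 1) (x, y) := adj_symm (adjU x y)

section mid

variable {B S : Set Pt}

theorem Mid.right (h : Mid B S) {p q : ℤ} (h1 : (p, q) ∈ B) (h2 : (p + 1, q) ∈ B) :
    Cn S (cen (p, q)) (cen (p + 1, q)) := by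
  refine (Cn.step (adjR _ _) (h.m11 p q h1) ?_).trans ((Cn.step (adjR _ _) ?_ ?_).trans
    (Cn.step ?_ ?_ (h.m11 (p + 1) q h2)))
  · simpa [add_assoc] using h.m21 p q h1
  · simpa [add_assoc] using h.m21 p q h1
  · have := h.m01 (p + 1) q h2
    convert this using 2
    ring
  · rw [adj_cases]
    left
    apply Prod.ext <;> simp only [cen] <;> ring
  · have := h.m01 (p + 1) q h2
    convert this using 2
    ring

theorem Mid.up (h : Mid B S) {p q : ℤ} (h1 : (p, q) ∈ B) (h2 : (p, q + 1) ∈ B) :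
    Cn S (cen (p, q)) (cen (p, q + 1)) := by
  refine (Cn.step (adjU _ _) (h.m11 p q h1) ?_).trans ((Cn.step (adjU _ _) ?_ ?_).trans
    (Cn.step ?_ ?_ (h.m11 p (q + 1) h2)))
  · simpa [add_assoc] using h.m12 p q h1
  · simpa [add_assoc] using h.m12 p q h1
  · have := h.m10 p (q + 1) h2
    convert this using 2
    ring
  · rw [adj_cases]
    right; right; left
    apply Prod.ext <;> simp only [cen] <;> ring
  · have := h.m10 p (q + 1) h2
    convert this using 2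
    ring

theorem Mid.cn (h : Mid B S) {b c : Pt} (hbc : Cn B b c) : Cn S (cen b) (cen c) := by
  unfold Cn at hbc
  induction hbc with
  | refl => exact Cn.refl _
  | @tail c d _ hs ih =>
    refine ih.trans ?_
    obtain ⟨ha, hc, hd⟩ := hs
    obtain ⟨p, q⟩ := c
    rw [adj_cases] at ha
    rcases ha with rfl | rfl | rfl | rfl
    · exact h.right hc hd
    · refine Cn.symm ?_
      have := h.right (p := p - 1) (q := q) hd (by rw [sub_add_cancel]; exact hc)
      rwa [sub_add_cancel] at this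
    · exact h.up hc hd
    · refine Cn.symm ?_
      have := h.up (p := p) (q := q - 1) hd (by rw [sub_add_cancel]; exact hc)
      rwa [sub_add_cancel] at this

/-- a face of `S` in a block of `B` is joined to the centre of the block -/
theorem Mid.cell (h : Mid B S) {f : Pt} (hf : f ∈ S) (hB : (f.1 / 3, f.2 / 3) ∈ B) :
    Cn S f (cen (f.1 / 3, f.2 / 3)) := by
  obtain ⟨x, y⟩ := f
  simp only at hB ⊢
  obtain ⟨p, hp⟩ := exists_coord x
  obtain ⟨q, hq⟩ := exists_coord y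
  have e1 : x / 3 = p := by omega
  have e2 : y / 3 = q := by omega
  rw [e1, e2] at hB ⊢
  have c11 := h.m11 p q hB
  have c10 := h.m10 p q hB
  have c01 := h.m01 p q hB
  have c21 := h.m21 p q hB
  have c12 := h.m12 p q hB
  have s10 : Cn S (3 * p + 1, 3 * q) (cen (p, q)) := Cn.step (adjU _ _) c10 c11
  have s01 : Cn S (3 * p, 3 * q + 1) (cen (p, q)) := Cn.step (adjR _ _) c01 c11
  have s21 : Cn S (3 * p + 2, 3 * q + 1) (cen (p, q)) := by
    refine Cn.step ?_ c21 c11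
    rw [adj_cases]
    right; left
    apply Prod.ext <;> simp only [cen] <;> ring
  have s12 : Cn S (3 * p + 1, 3 * q + 2) (cen (p, q)) := by
    refine Cn.step ?_ c12 c11
    rw [adj_cases]
    right; right; right
    apply Prod.ext <;> simp only [cen] <;> ring
  rcases hp with rfl | rfl | rfl <;> rcases hq with rfl | rfl | rfl
  · exact (Cn.step (adjR _ _) hf c10).trans s10
  · exact s01
  · exact (Cn.step (adjR _ _) hf c12).trans s12
  · exact s10
  · exact Cn.refl _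
  · exact s12
  · refine (Cn.step ?_ hf c10).trans s10
    rw [adj_cases]
    right; left
    apply Prod.ext <;> simp only [cen] <;> ring
  · exact s21
  · refine (Cn.step ?_ hf c12).trans s12
    rw [adj_cases]
    right; left
    apply Prod.ext <;> simp only [cen] <;> ring

end mid

theorem ref_of_blk {f : Pt} (h : (f.1 / 3, f.2 / 3) ∈ A) : f ∈ Ref A := Or.inl h

theorem cen_blk (b : Pt) : ((cen b).1 / 3, (cen b).2 / 3) = b := by
  obtain ⟨p, q⟩ := b
  simp only [cen, Prod.mk.injEq]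
  constructor <;> omega

/-- every face of the refinement is joined to the centre of a block of `A` at distance `≤ 1` -/
theorem ref_near {f : Pt} (hf : f ∈ Ref A) : ∃ b ∈ A, Cn (Ref A) f (cen b) ∧
    f.1 / 3 - 1 ≤ b.1 ∧ b.1 ≤ f.1 / 3 + 1 ∧ b.2 = f.2 / 3 := by
  by_cases hb : (f.1 / 3, f.2 / 3) ∈ A
  · exact ⟨_, hb, mid_ref.cell hf hb, by simp, by simp, rfl⟩
  · obtain ⟨x, y⟩ := f
    simp only at hb
    have h2 := hf
    have hL : ∀ p : ℤ, x = 3 * p → (p - 1, y / 3) ∈ A → ∃ b ∈ A, Cn (Ref A) (x, y) (cen b) ∧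
        x / 3 - 1 ≤ b.1 ∧ b.1 ≤ x / 3 + 1 ∧ b.2 = y / 3 := by
      intro p hp hA
      have e : (x - 1) / 3 = p - 1 := by omega
      have h4 : ((x - 1, y) : Pt) ∈ Ref A := ref_of_blk (by simp only; rw [e]; exact hA)
      refine ⟨_, hA, (Cn.step (adj_cases.2 (Or.inr (Or.inl rfl))) hf h4).trans ?_, ?_, ?_, rfl⟩
      · have := mid_ref.cell h4 (by simp only; rw [e]; exact hA)
        simp only at this
        rwa [e] at this
      · simp only; omega
      · simp only; omega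
    have hR : ∀ p : ℤ, x = 3 * p + 2 → (p + 1, y / 3) ∈ A → ∃ b ∈ A, Cn (Ref A) (x, y) (cen b) ∧
        x / 3 - 1 ≤ b.1 ∧ b.1 ≤ x / 3 + 1 ∧ b.2 = y / 3 := by
      intro p hp hA
      have e : (x + 1) / 3 = p + 1 := by omega
      have h4 : ((x + 1, y) : Pt) ∈ Ref A := ref_of_blk (by simp only; rw [e]; exact hA)
      refine ⟨_, hA, (Cn.step (adj_cases.2 (Or.inl rfl)) hf h4).trans ?_, ?_, ?_, rfl⟩
      · have := mid_ref.cell h4 (by simp only; rw [e]; exact hA)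
        simp only at this
        rwa [e] at this
      · simp only; omega
      · simp only; omega
    rcases h2 with h2 | h2 | h2 | h2 | h2
    · exact absurd h2 hb
    · exact hL (x / 3) (by have := h2.1; simp only at this; omega) h2.2.2.1
    · exact hR (x / 3) (by have := h2.1; simp only at this; omega) h2.2.2.1
    · exact hL (x / 3) (by have := h2.1; simp only at this; omega) h2.2.2.1
    · exact hR (x / 3) (by have := h2.1; simp only at this; omega) h2.2.2.1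

theorem ref_finite (hf : A.Finite) : (Ref A).Finite := by
  obtain ⟨M, hM0, hM⟩ := exists_box hf
  refine ((Set.finite_Icc (-(3 * M + 6)) (3 * M + 6)).prod
    (Set.finite_Icc (-(3 * M + 6)) (3 * M + 6))).subset ?_
  intro f hfR
  obtain ⟨b, hb, -, h1, h2, h3⟩ := ref_near hfR
  have h4 := abs_le.1 (hM b hb).1
  have h5 := abs_le.1 (hM b hb).2
  simp only [Set.mem_prod, Set.mem_Icc]
  omega

/-- **the refinement is enclosed by a simple polygon** -/
theorem ref_cycle (hf : A.Finite) (hne : A.Nonempty) (hc : ∀ f ∈ A, ∀ g ∈ A, Cn A f g)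
    (hcc : ∀ f, f ∉ A → ∀ M : ℤ, ∃ g : Pt, g.1 < M ∧ Cn Aᶜ f g) :
    ∃ γ : LatCycle, ∀ f, γ.inside f ↔ f ∈ Ref A := by
  refine exists_cycle (ref_finite hf) ?_ noPinch_ref ?_ ?_
  · obtain ⟨b, hb⟩ := hne
    exact ⟨cen b, ref_of_blk (by rw [cen_blk]; exact hb)⟩
  · intro f hf' g hg
    obtain ⟨b, hb, h1, -⟩ := ref_near hf'
    obtain ⟨c, hc', h2, -⟩ := ref_near hg
    exact (h1.trans (mid_ref.cn (hc b hb c hc'))).trans h2.symm
  · intro f hf' M
    have hb : (f.1 / 3, f.2 / 3) ∉ A := fun h => hf' (ref_of_blk h)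
    obtain ⟨g, hg, h1⟩ := hcc _ hb (min (M / 3 - 1) M)
    refine ⟨cen g, ?_, (mid_compl.cell hf' hb).trans (mid_compl.cn h1)⟩
    simp only [cen]
    omega

end Vale.Agent.P155.X877
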