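import Vale.Agent.P155.X877.Poly

/-!
# P155, existence of Temperleyan approximations: filling the holes of a connected set of faces
-/

namespace Vale.Agent.P155.X877

open Relation

/-- faces joined to infinity in the complement of `A` -/
def Out (A : Set Pt) : Set Pt := {b | ∀ M : ℤ, ∃ g : Pt, g.1 < M ∧ Cn Aᶜ b g}

/-- `A` with its holes filled -/
def Fill (A : Set Pt) : Set Pt := (Out A)ᶜ

variable {A : Set Pt}

theorem out_not_mem {b : Pt} (h : b ∈ Out A) : b ∉ A := by
  intro hb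
  obtain ⟨g, hg, hc⟩ := h b.1
  have h1 := hc.symm
  unfold Cn at h1
  rcases ReflTransGen.cases_tail h1 with h2 | ⟨c, _, h3⟩
  · rw [h2] at hg
    exact lt_irrefl _ hg
  · exact h3.2.2 hb

theorem sub_fill : A ⊆ Fill A := fun _ hb h => out_not_mem h hb

theorem out_of_cn {b c : Pt} (h : Cn Aᶜ b c) (hc : c ∈ Out A) : b ∈ Out A := by
  intro M
  obtain ⟨g, hg, h'⟩ := hc M
  exact ⟨g, hg, h.trans h'⟩

theorem out_step {b c : Pt} (h : Adj b c) (hb : b ∉ A) (hc : c ∈ Out A) : b ∈ Out A :=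
  out_of_cn (Cn.step h hb (out_not_mem hc)) hc

/-- neighbours of the holes are in the filled set -/
theorem hole_adj {b c : Pt} (h : Adj b c) (hb : b ∈ Fill A) (hbA : b ∉ A) : c ∈ Fill A :=
  fun hc => hb (out_step h hbA hc)

theorem left_free {b : Pt} (h : ∀ j ≤ b.1, (j, b.2) ∉ A) : b ∈ Out A := by
  have key : ∀ k : ℕ, Cn Aᶜ b (b.1 - k, b.2) := by
    intro k
    induction k with
    | zero => simpa using Cn.refl b
    | succ k ih =>
      refine ih.trans (Cn.step ?_ ?_ ?_)
      · rw [adj_cases]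
        right; left
        simp only [Prod.mk.injEq, and_true]
        push_cast
        ring
      · exact h _ (by omega)
      · exact h _ (by push_cast; omega)
  intro M
  refine ⟨_, ?_, key (b.1 - M + 1).toNat⟩
  simp only
  omega

theorem out_of_up {b : Pt} (k : ℕ) (h : ∀ i : ℕ, i ≤ k → (b.1, b.2 + i) ∉ A)
    (hk : (b.1, b.2 + k) ∈ Out A) : b ∈ Out A := by
  have key : ∀ m : ℕ, m ≤ k → Cn Aᶜ b (b.1, b.2 + m) := by
    intro m
    induction m with
    | zero => intro _; simpa using Cn.refl b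
    | succ m ih =>
      intro hm
      refine (ih (by omega)).trans (Cn.step ?_ ?_ ?_)
      · rw [adj_cases]
        right; right; left
        simp only [Prod.mk.injEq, true_and]
        push_cast
        ring
      · exact h _ (by omega)
      · exact h _ hm
  exact out_of_cn (key k le_rfl) hk

theorem exists_box (hf : A.Finite) : ∃ M : ℤ, 0 ≤ M ∧ ∀ v ∈ A, |v.1| ≤ M ∧ |v.2| ≤ M := by
  obtain ⟨M1, hM1⟩ := (hf.image (fun v : Pt => |v.1|)).bddAbove
  obtain ⟨M2, hM2⟩ := (hf.image (fun v : Pt => |v.2|)).bddAbove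
  refine ⟨max 0 (max M1 M2), le_max_left _ _, fun v hv => ⟨?_, ?_⟩⟩
  · exact (hM1 ⟨v, hv, rfl⟩).trans ((le_max_left _ _).trans (le_max_right _ _))
  · exact (hM2 ⟨v, hv, rfl⟩).trans ((le_max_right _ _).trans (le_max_right _ _))

theorem out_of_far {M : ℤ} (hM : ∀ v ∈ A, |v.1| ≤ M ∧ |v.2| ≤ M) {b : Pt}
    (h : M < |b.1| ∨ M < |b.2|) : b ∈ Out A := by
  have hrow : ∀ c : Pt, M < |c.2| → c ∈ Out A := by
    intro c hc
    refine left_free fun j _ hj => ?_
    exact absurd (hM _ hj).2 (not_le.2 hc)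
  rcases h with h | h
  · rcases lt_or_ge M b.1 with h1 | h1
    · refine out_of_up (M + 1 - b.2).toNat (fun i _ hi => ?_) (hrow _ ?_)
      · have := (abs_le.1 (hM _ hi).1).2
        simp only at this
        omega
      · simp only
        have : M + 1 ≤ b.2 + ((M + 1 - b.2).toNat : ℤ) := by omega
        have h2 := le_abs_self (b.2 + ((M + 1 - b.2).toNat : ℤ))
        omega
    · refine left_free fun j hj hjA => ?_
      have h2 := (abs_le.1 (hM _ hjA).1).1
      simp only at h2
      have h3 : b.1 < -M := by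
        rcases abs_cases b.1 with ⟨h4, _⟩ | ⟨h4, _⟩ <;> omega
      omega
  · exact hrow b h

theorem fill_finite (hf : A.Finite) : (Fill A).Finite := by
  obtain ⟨M, hM0, hM⟩ := exists_box hf
  refine ((Set.finite_Icc (-M) M).prod (Set.finite_Icc (-M) M)).subset ?_
  rintro ⟨x, y⟩ h
  simp only [Set.mem_prod, Set.mem_Icc, ← abs_le]
  constructor
  · by_contra hcon
    exact h (out_of_far hM (Or.inl (not_le.1 hcon)))
  · by_contra hcon
    exact h (out_of_far hM (Or.inr (not_le.1 hcon)))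

theorem cn_out {b g : Pt} (h : Cn Aᶜ b g) (hb : b ∈ Out A) : Cn (Out A) b g := by
  unfold Cn at h
  induction h with
  | refl => exact Cn.refl _
  | tail hab hs ih =>
    refine ih.trans (Cn.step hs.1 ?_ ?_)
    · exact out_of_cn (Cn.symm hab) hb
    · exact out_of_cn (Cn.symm (ReflTransGen.tail hab hs)) hb

theorem fill_compl {f : Pt} (hf : f ∉ Fill A) (M : ℤ) : ∃ g : Pt, g.1 < M ∧ Cn (Fill A)ᶜ f g := by
  have h1 : f ∈ Out A := by
    by_contra h
    exact hf h
  obtain ⟨g, hg, hc⟩ := h1 M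
  refine ⟨g, hg, (cn_out hc h1).mono ?_⟩
  unfold Fill
  rw [compl_compl]

theorem fill_conn {b : Pt} (hb : b ∈ Fill A) : ∃ a ∈ A, Cn (Fill A) b a := by
  have key : ∀ k : ℕ, ∀ b ∈ Fill A, (b.1 - k, b.2) ∈ A → ∃ a ∈ A, Cn (Fill A) b a := by
    intro k
    induction k with
    | zero =>
      intro b _ h
      exact ⟨b, by simpa using h, Cn.refl b⟩
    | succ k ih =>
      intro b hb h
      by_cases hbA : b ∈ A
      · exact ⟨b, hbA, Cn.refl b⟩
      · have hadj : Adj b (b.1 - 1, b.2) := by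
          rw [adj_cases]
          right; left; rfl
        have h1 := hole_adj hadj hb hbA
        obtain ⟨a, ha, hc⟩ := ih (b.1 - 1, b.2) h1 (by
          have e : (b.1 - 1 - (k : ℤ), b.2) = (b.1 - ((k + 1 : ℕ) : ℤ), b.2) := by
            push_cast
            ring_nf
          show (b.1 - 1 - (k : ℤ), b.2) ∈ A
          rw [e]
          exact h)
        exact ⟨a, ha, (Cn.step hadj hb h1).trans hc⟩
  have h1 : ¬ ∀ j ≤ b.1, (j, b.2) ∉ A := fun h => hb (left_free h)
  push Not at h1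
  obtain ⟨j, hj, hjA⟩ := h1
  refine key (b.1 - j).toNat b hb ?_
  have e : b.1 - ((b.1 - j).toNat : ℤ) = j := by omega
  rw [e]
  exact hjA

/-- the connected component of `b0` in `N` -/
def Comp (N : Set Pt) (b0 : Pt) : Set Pt := {b | Cn N b0 b}

theorem comp_sub {N : Set Pt} {b0 : Pt} (h : b0 ∈ N) : Comp N b0 ⊆ N := fun _ hb => Cn.mem hb h

theorem comp_conn {N : Set Pt} {b0 : Pt} {b : Pt} (hb : b ∈ Comp N b0) :
    Cn (Comp N b0) b0 b := by
  have hb' : Cn N b0 b := hb
  unfold Cn at hb'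
  induction hb' with
  | refl => exact Cn.refl _
  | tail hab hs ih =>
    exact (ih hab).trans (Cn.step hs.1 hab (ReflTransGen.tail hab hs))

theorem comp_adj {N : Set Pt} {b0 b c : Pt} (hb : b ∈ Comp N b0) (h : Adj b c) (hbN : b ∈ N)
    (hc : c ∈ N) : c ∈ Comp N b0 := ReflTransGen.tail hb ⟨h, hbN, hc⟩

/-- the filled component is connected -/
theorem fill_comp_conn {N : Set Pt} {b0 f g : Pt} (hf : f ∈ Fill (Comp N b0))
    (hg : g ∈ Fill (Comp N b0)) : Cn (Fill (Comp N b0)) f g := by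
  have key : ∀ f ∈ Fill (Comp N b0), Cn (Fill (Comp N b0)) b0 f := by
    intro f hf
    obtain ⟨a, ha, hc⟩ := fill_conn hf
    exact ((comp_conn ha).mono sub_fill).trans hc.symm
  exact (key f hf).symm.trans (key g hg)

end Vale.Agent.P155.X877
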