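import Mathlib

/-!
# P155, existence of Temperleyan approximations: continuous logarithms

(copy of a part of `P153/R2/TOP`)
-/

open Set Topology

namespace Vale.Agent.P155.X877

/-- `f` has a continuous logarithm on `K`. -/
def LogOn {X : Type*} [TopologicalSpace X] (K : Set X) (f : X → ℂ) : Prop :=
  ∃ F : X → ℂ, ContinuousOn F K ∧ ∀ x ∈ K, Complex.exp (F x) = f x

section Basic

variable {X Y : Type*} [TopologicalSpace X] [TopologicalSpace Y] {K A B : Set X} {f g : X → ℂ}

theorem LogOn.mono (h : LogOn K f) {K' : Set X} (hK : K' ⊆ K) : LogOn K' f := by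
  obtain ⟨F, hF, hF'⟩ := h
  exact ⟨F, hF.mono hK, fun x hx => hF' x (hK hx)⟩

theorem LogOn.congr (h : LogOn K f) (hfg : ∀ x ∈ K, g x = f x) : LogOn K g := by
  obtain ⟨F, hF, hF'⟩ := h
  exact ⟨F, hF, fun x hx => by rw [hF' x hx, hfg x hx]⟩

theorem LogOn.ne_zero (h : LogOn K f) {x : X} (hx : x ∈ K) : f x ≠ 0 := by
  obtain ⟨F, -, hF'⟩ := h
  rw [← hF' x hx]
  exact Complex.exp_ne_zero _

theorem LogOn.continuousOn (h : LogOn K f) : ContinuousOn f K := by
  obtain ⟨F, hF, hF'⟩ := h
  exact (Complex.continuous_exp.comp_continuousOn hF).congr fun x hx => (hF' x hx).symm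

theorem LogOn.mul (hf : LogOn K f) (hg : LogOn K g) : LogOn K (fun x => f x * g x) := by
  obtain ⟨F, hF, hF'⟩ := hf
  obtain ⟨G, hG, hG'⟩ := hg
  exact ⟨fun x => F x + G x, hF.add hG, fun x hx => by
    rw [Complex.exp_add, hF' x hx, hG' x hx]⟩

theorem LogOn.inv (hf : LogOn K f) : LogOn K (fun x => (f x)⁻¹) := by
  obtain ⟨F, hF, hF'⟩ := hf
  exact ⟨fun x => -F x, hF.neg, fun x hx => by rw [Complex.exp_neg, hF' x hx]⟩

theorem LogOn.div (hf : LogOn K f) (hg : LogOn K g) : LogOn K (fun x => f x / g x) := by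
  refine (hf.mul hg.inv).congr fun x _ => ?_
  exact div_eq_mul_inv _ _

theorem LogOn.zpow (hf : LogOn K f) (n : ℤ) : LogOn K (fun x => f x ^ n) := by
  obtain ⟨F, hF, hF'⟩ := hf
  exact ⟨fun x => n * F x, continuousOn_const.mul hF, fun x hx => by
    rw [Complex.exp_int_mul, hF' x hx]⟩

theorem logOn_const {c : ℂ} (hc : c ≠ 0) : LogOn K (fun _ => c) :=
  ⟨fun _ => Complex.log c, continuousOn_const, fun _ _ => Complex.exp_log hc⟩

theorem logOn_of_slitPlane (hf : ContinuousOn f K) (h : ∀ x ∈ K, f x ∈ Complex.slitPlane) :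
    LogOn K f :=
  ⟨fun x => Complex.log (f x), hf.clog h, fun x hx =>
    Complex.exp_log (Complex.slitPlane_ne_zero (h x hx))⟩

theorem logOn_of_norm_sub_one_lt (hf : ContinuousOn f K) (h : ∀ x ∈ K, ‖f x - 1‖ < 1) :
    LogOn K f := by
  refine logOn_of_slitPlane hf fun x hx => ?_
  have := Complex.mem_slitPlane_of_norm_lt_one (h x hx)
  simpa using this

theorem LogOn.comp {L : Set Y} (hf : LogOn K f) {φ : Y → X} (hφ : ContinuousOn φ L)
    (hm : MapsTo φ L K) : LogOn L (fun y => f (φ y)) := by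
  obtain ⟨F, hF, hF'⟩ := hf
  exact ⟨fun y => F (φ y), hF.comp hφ hm, fun y hy => hF' _ (hm hy)⟩

theorem logOn_empty : LogOn (∅ : Set X) f := ⟨0, continuousOn_empty _, fun _ h => h.elim⟩

end Basic

/-- A continuous integer valued function on a preconnected set is constant. -/
theorem int_const {X : Type*} [TopologicalSpace X] {A : Set X} (hA : IsPreconnected A)
    {φ : X → ℝ} (hφ : ContinuousOn φ A) (hint : ∀ x ∈ A, ∃ n : ℤ, φ x = n) {x y : X}
    (hx : x ∈ A) (hy : y ∈ A) : φ x = φ y := by
  have key : ∀ x ∈ A, ∀ y ∈ A, ¬ φ x < φ y := by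
    intro x hx y hy hlt
    obtain ⟨n, hn⟩ := hint x hx
    obtain ⟨m, hm⟩ := hint y hy
    have himg := hA.image _ hφ
    have hnm : n < m := by
      rw [hn, hm] at hlt
      exact_mod_cast hlt
    have hnm' : (n : ℝ) + 1 ≤ m := by exact_mod_cast hnm
    have hmem : (n : ℝ) + 1 / 2 ∈ φ '' A := by
      refine himg.Icc_subset (mem_image_of_mem _ hx) (mem_image_of_mem _ hy) ?_
      rw [hn, hm]
      constructor <;> linarith
    obtain ⟨z, hz, hz'⟩ := hmem
    obtain ⟨k, hk⟩ := hint z hz
    rw [hk] at hz'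
    have h2 : (2 * k : ℝ) = 2 * n + 1 := by linarith
    have h3 : (2 * k : ℤ) = 2 * n + 1 := by exact_mod_cast h2
    omega
  exact le_antisymm (not_lt.1 (key y hy x hx)) (not_lt.1 (key x hx y hy))

/-- Two continuous logarithms of the same function on a preconnected set differ by a constant. -/
theorem log_diff_const {X : Type*} [TopologicalSpace X] {A : Set X} (hA : IsPreconnected A)
    {F G : X → ℂ} (hF : ContinuousOn F A) (hG : ContinuousOn G A)
    (h : ∀ x ∈ A, Complex.exp (F x) = Complex.exp (G x)) {x y : X} (hx : x ∈ A) (hy : y ∈ A) :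
    F x - G x = F y - G y := by
  have hpi : (2 * Real.pi * Complex.I : ℂ) ≠ 0 := Complex.two_pi_I_ne_zero
  have hc : ContinuousOn (fun x => ((F x - G x) / (2 * Real.pi * Complex.I)).re) A :=
    Complex.continuous_re.comp_continuousOn ((hF.sub hG).div_const _)
  have hint : ∀ x ∈ A, ∃ n : ℤ, F x - G x = n * (2 * Real.pi * Complex.I) := by
    intro x hx
    obtain ⟨n, hn⟩ := Complex.exp_eq_exp_iff_exists_int.1 (h x hx)
    exact ⟨n, by rw [hn]; ring⟩
  have hval : ∀ x ∈ A, ∀ n : ℤ, F x - G x = n * (2 * Real.pi * Complex.I) →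
      ((F x - G x) / (2 * Real.pi * Complex.I)).re = n := by
    intro x _ n hn
    rw [hn, mul_div_cancel_right₀ _ hpi]
    simp
  have := int_const hA hc (fun x hx => by
    obtain ⟨n, hn⟩ := hint x hx
    exact ⟨n, hval x hx n hn⟩) hx hy
  obtain ⟨n, hn⟩ := hint x hx
  obtain ⟨m, hm⟩ := hint y hy
  rw [hval x hx n hn, hval y hy m hm] at this
  have h3 : n = m := by exact_mod_cast this
  rw [hn, hm, h3]

/-! ### Spaces all of whose nonvanishing functions have logarithms -/

/-- Every nowhere vanishing continuous complex function on the set `K` has a continuous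
logarithm. -/
def HasLogOn {X : Type*} [TopologicalSpace X] (K : Set X) : Prop :=
  ∀ f : X → ℂ, ContinuousOn f K → (∀ x ∈ K, f x ≠ 0) → LogOn K f

/-- Relation with the subtype. -/
theorem hasLogOn_of_subtype {X : Type*} [TopologicalSpace X] {K : Set X}
    (h : ∀ f : C(K, ℂ), (∀ x, f x ≠ 0) → ∃ F : C(K, ℂ), ∀ x, Complex.exp (F x) = f x) :
    HasLogOn K := by
  classical
  intro f hf hf0
  obtain ⟨F, hF⟩ := h ⟨K.domRestrict f, continuousOn_iff_continuous_domRestrict.1 hf⟩
    (fun x => hf0 _ x.2)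
  refine ⟨fun x => if hx : x ∈ K then F ⟨x, hx⟩ else 0, ?_, ?_⟩
  · rw [continuousOn_iff_continuous_domRestrict]
    refine F.continuous.congr fun x => ?_
    simp
  · intro x hx
    simp only [hx, dite_true]
    exact hF ⟨x, hx⟩

theorem hasLogOn_univ_of_simplyConnected (X : Type*) [TopologicalSpace X]
    [SimplyConnectedSpace X] [LocallyPathConnectedSpace X] : HasLogOn (univ : Set X) := by
  intro f hf hf0
  obtain ⟨a₀⟩ : Nonempty X := inferInstance
  obtain ⟨F, ⟨-, hF⟩, -⟩ := Complex.isCoveringMapOn_exp.existsUnique_continuousMap_lifts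
    ⟨f, continuousOn_univ.1 hf⟩
    (a₀ := a₀) (e₀ := Complex.log (f a₀)) (Complex.exp_log (hf0 a₀ (mem_univ _)))
    (fun a => by simpa using hf0 a (mem_univ _))
  exact ⟨F, F.continuous.continuousOn, fun x _ => congrFun hF x⟩

theorem hasLogOn_of_convex {E : Type*} [AddCommGroup E] [Module ℝ E] [TopologicalSpace E]
    [IsTopologicalAddGroup E] [ContinuousSMul ℝ E] [LocallyConvexSpace ℝ E] {S : Set E}
    (hS : Convex ℝ S) : HasLogOn S := by
  rcases S.eq_empty_or_nonempty with rfl | hne
  · exact fun _ _ _ => logOn_empty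
  · have : ContractibleSpace S := hS.contractibleSpace hne
    have : LocallyPathConnectedSpace S := hS.locallyPathConnectedSpace
    refine hasLogOn_of_subtype fun f hf => ?_
    obtain ⟨F, hF, hF'⟩ := hasLogOn_univ_of_simplyConnected S f f.continuous.continuousOn
      (fun x _ => hf x)
    exact ⟨⟨F, continuousOn_univ.1 hF⟩, fun x => hF' x (mem_univ _)⟩

/-- `z - p` has no continuous logarithm (not even a nonzero power) on a circle around `p`. -/
theorem not_logOn_circle {p : ℂ} {R : ℝ} (hR : 0 < R) {n : ℤ} (hn : n ≠ 0) :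
    ¬ LogOn (Metric.sphere p R) (fun z => (z - p) ^ n) := by
  rintro ⟨L, hL, hL'⟩
  have hcirc : Continuous fun t : ℝ => circleMap p R t := continuous_circleMap p R
  have hmem : ∀ t : ℝ, circleMap p R t ∈ Metric.sphere p R := fun t =>
    circleMap_mem_sphere p hR.le t
  have h1 : ContinuousOn (fun t : ℝ => L (circleMap p R t)) univ :=
    hL.comp hcirc.continuousOn fun t _ => hmem t
  have h2 : ContinuousOn (fun t : ℝ => (n : ℂ) * (Real.log R + t * Complex.I)) univ := by
    fun_prop
  have h3 := log_diff_const isPreconnected_univ h1 h2 (fun t _ => by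
    rw [hL' _ (hmem t), Complex.exp_int_mul, Complex.exp_add]
    rw [← Complex.ofReal_exp, Real.exp_log hR, circleMap]
    ring_nf) (mem_univ (0 : ℝ)) (mem_univ (2 * Real.pi))
  have h4 : circleMap p R (2 * Real.pi) = circleMap p R 0 := by
    have := periodic_circleMap p R 0
    simpa using this
  simp only [h4] at h3
  have h5 : (n : ℂ) * (2 * Real.pi * Complex.I) = 0 := by
    have := h3
    push_cast at this
    linear_combination this
  rcases mul_eq_zero.1 h5 with h | h
  · exact hn (by exact_mod_cast h)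
  · exact Complex.two_pi_I_ne_zero h

/-- Basic extension argument: if `U` is a bounded open set with frontier in the compact
set `K`, `p ∈ U`, and `(z - p)^n = g z * exp (F z)` on `K` with `g` continuous and nonvanishing on
the closure of `U` then `n = 0`. -/
theorem eq_zero_of_extension {K : Set ℂ} (hK : IsClosed K) {U : Set ℂ} (hUo : IsOpen U)
    (hUb : Bornology.IsBounded U) (hfr : frontier U ⊆ K) {p : ℂ} (hp : p ∈ U) {n : ℤ}
    {g : ℂ → ℂ} (hg : ContinuousOn g (closure U)) (hg0 : ∀ z ∈ closure U, g z ≠ 0)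
    (h : LogOn K (fun z => (z - p) ^ n / g z)) : n = 0 := by
  classical
  by_contra hn
  obtain ⟨F, hF, hF'⟩ := h
  obtain ⟨F₁, hF₁⟩ := ContinuousMap.exists_restrict_eq hK
    (⟨K.domRestrict F, continuousOn_iff_continuous_domRestrict.1 hF⟩ : C(K, ℂ))
  have hF₁' : ∀ z ∈ K, F₁ z = F z := by
    intro z hz
    have := DFunLike.congr_fun hF₁ ⟨z, hz⟩
    exact this
  -- the global function
  let G : ℂ → ℂ := (closure U).piecewise (fun z => g z * Complex.exp (F₁ z)) (fun z => (z - p) ^ n)
  have hGin : ∀ z ∈ closure U, G z = g z * Complex.exp (F₁ z) := fun z hz =>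
    Set.piecewise_eq_of_mem _ _ _ hz
  have hfrz : ∀ z ∈ frontier U, g z * Complex.exp (F₁ z) = (z - p) ^ n := by
    intro z hz
    have hzK := hfr hz
    have hzc : z ∈ closure U := frontier_subset_closure hz
    rw [hF₁' z hzK, hF' z hzK, mul_div_cancel₀ _ (hg0 z hzc)]
  have hGout : ∀ z ∈ Uᶜ, G z = (z - p) ^ n := by
    intro z hz
    by_cases hzc : z ∈ closure U
    · rw [hGin z hzc, hfrz z ?_]
      rw [hUo.frontier_eq]
      exact ⟨hzc, hz⟩
    · exact Set.piecewise_eq_of_notMem _ _ _ hzc
  have hpout : ∀ z ∈ Uᶜ, z - p ≠ 0 := by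
    intro z hz h0
    exact hz (by rw [sub_eq_zero.1 h0]; exact hp)
  have hGc : ContinuousOn G univ := by
    have : (univ : Set ℂ) = closure U ∪ Uᶜ := by
      refine (eq_univ_of_forall fun z => ?_).symm
      by_cases hz : z ∈ U
      · exact Or.inl (subset_closure hz)
      · exact Or.inr hz
    rw [this]
    refine ContinuousOn.union_of_isClosed ?_ ?_ isClosed_closure hUo.isClosed_compl
    · exact (hg.mul ((Complex.continuous_exp.comp F₁.continuous).continuousOn)).congr hGin
    · refine ContinuousOn.congr ?_ hGout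
      exact (continuousOn_id.sub continuousOn_const).zpow₀ n fun z hz => Or.inl (hpout z hz)
  have hG0 : ∀ z ∈ (univ : Set ℂ), G z ≠ 0 := by
    intro z _
    by_cases hzc : z ∈ closure U
    · rw [hGin z hzc]
      exact mul_ne_zero (hg0 z hzc) (Complex.exp_ne_zero _)
    · have hz : z ∈ Uᶜ := fun h => hzc (subset_closure h)
      rw [hGout z hz]
      exact zpow_ne_zero _ (hpout z hz)
  have hlog : LogOn univ G := hasLogOn_of_convex convex_univ G hGc hG0
  obtain ⟨R, hR0, hR⟩ : ∃ R > 0, U ⊆ Metric.ball p R := by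
    obtain ⟨R, hR⟩ := hUb.subset_ball p
    exact ⟨max R 1, by positivity, hR.trans (Metric.ball_subset_ball (le_max_left _ _))⟩
  refine not_logOn_circle (p := p) hR0 hn ((hlog.mono (subset_univ _)).congr fun z hz => ?_)
  refine (hGout z fun hzU => ?_).symm
  have h1 := hR hzU
  rw [Metric.mem_ball] at h1
  rw [Metric.mem_sphere] at hz
  linarith


/-- `z - p` has no continuous logarithm on the boundary of a bounded open set which contains `p` -/
theorem not_logOn_frontier {U : Set ℂ} (hUo : IsOpen U) (hUb : Bornology.IsBounded U) {p : ℂ}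
    (hp : p ∈ U) : ¬ LogOn (frontier U) (fun z => z - p) := by
  intro h
  have := eq_zero_of_extension isClosed_frontier hUo hUb subset_rfl hp (n := 1) (g := fun _ => 1)
    continuousOn_const (fun _ _ => one_ne_zero) (h.congr fun z _ => by simp)
  exact one_ne_zero this

/-- a simply connected open set has logarithms of `z - p`, `p` not in the set -/
theorem logOn_simplyConnected {Ω : Set ℂ} (ho : IsOpen Ω) (hsc : SimplyConnectedSpace Ω) {p : ℂ}
    (hp : p ∉ Ω) : LogOn Ω (fun z => z - p) := by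
  have : LocallyPathConnectedSpace Ω := ho.locallyPathConnectedSpace
  refine hasLogOn_of_subtype (fun f hf => ?_) _ (by fun_prop) ?_
  · obtain ⟨F, hF, hF'⟩ := hasLogOn_univ_of_simplyConnected Ω f f.continuous.continuousOn
      (fun x _ => hf x)
    exact ⟨⟨F, continuousOn_univ.1 hF⟩, fun x => hF' x (mem_univ _)⟩
  · intro x hx h0
    exact hp (by rw [← sub_eq_zero.1 h0]; exact hx)

end Vale.Agent.P155.X877
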