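import Vale.Agent.P155.A.JCT

/-!
# P155, existence of Temperleyan approximations: sets of faces enclosed by simple lattice polygons

A finite nonempty connected set of faces, with connected complement and without pinched vertices,
is the set of the faces enclosed by a simple lattice polygon.
-/

namespace Vale.Agent.P155.X877

open Relation Function

/-- one step between neighbouring faces of the set `A` -/
def St (A : Set Pt) (f g : Pt) : Prop := Adj f g ∧ f ∈ A ∧ g ∈ A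

/-- joined by a path of faces of `A` -/
def Cn (A : Set Pt) : Pt → Pt → Prop := ReflTransGen (St A)

theorem adj_symm {u v : Pt} (h : Adj u v) : Adj v u := by
  unfold Adj at *
  rw [abs_sub_comm v.1, abs_sub_comm v.2]
  exact h

theorem St.symm {A : Set Pt} {f g : Pt} (h : St A f g) : St A g f := ⟨adj_symm h.1, h.2.2, h.2.1⟩

theorem Cn.symm {A : Set Pt} {f g : Pt} (h : Cn A f g) : Cn A g f := by
  unfold Cn at *
  induction h with
  | refl => exact ReflTransGen.refl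
  | tail _ hs ih => exact ReflTransGen.head hs.symm ih

theorem Cn.trans {A : Set Pt} {f g k : Pt} (h : Cn A f g) (h' : Cn A g k) : Cn A f k :=
  ReflTransGen.trans h h'

theorem Cn.refl {A : Set Pt} (f : Pt) : Cn A f f := ReflTransGen.refl

theorem Cn.step {A : Set Pt} {f g : Pt} (h : Adj f g) (hf : f ∈ A) (hg : g ∈ A) : Cn A f g :=
  ReflTransGen.single ⟨h, hf, hg⟩

theorem rtg_mono {r p : Pt → Pt → Prop} (hrp : ∀ a b, r a b → p a b) {f g : Pt}
    (h : ReflTransGen r f g) : ReflTransGen p f g := by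
  induction h with
  | refl => exact ReflTransGen.refl
  | tail _ hs ih => exact ih.tail (hrp _ _ hs)

theorem Cn.mono {A B : Set Pt} (hAB : A ⊆ B) {f g : Pt} (h : Cn A f g) : Cn B f g :=
  rtg_mono (fun _ _ h => ⟨h.1, hAB h.2.1, hAB h.2.2⟩) h

theorem Cn.mem {A : Set Pt} {f g : Pt} (h : Cn A f g) (hf : f ∈ A) : g ∈ A := by
  unfold Cn at h
  induction h with
  | refl => exact hf
  | tail _ hs _ => exact hs.2.2

theorem adj_cases {u v : Pt} : Adj u v ↔
    v = (u.1 + 1, u.2) ∨ v = (u.1 - 1, u.2) ∨ v = (u.1, u.2 + 1) ∨ v = (u.1, u.2 - 1) := by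
  rw [← mem_nbrs]
  simp [nbrs]

/-- no pinched vertex -/
def NoPinch (A : Set Pt) : Prop := ∀ x y : ℤ,
  ¬ ((x, y) ∈ A ∧ (x - 1, y - 1) ∈ A ∧ (x - 1, y) ∉ A ∧ (x, y - 1) ∉ A) ∧
  ¬ ((x, y) ∉ A ∧ (x - 1, y - 1) ∉ A ∧ (x - 1, y) ∈ A ∧ (x, y - 1) ∈ A)

section

variable (A : Set Pt)

def oE (v : Pt) : Prop := (v.1, v.2) ∈ A ∧ (v.1, v.2 - 1) ∉ A
def oN (v : Pt) : Prop := (v.1 - 1, v.2) ∈ A ∧ (v.1, v.2) ∉ A
def oW (v : Pt) : Prop := (v.1 - 1, v.2 - 1) ∈ A ∧ (v.1 - 1, v.2) ∉ A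
def oS (v : Pt) : Prop := (v.1, v.2 - 1) ∈ A ∧ (v.1 - 1, v.2 - 1) ∉ A

/-- boundary vertices -/
def Bd : Set Pt := {v | oE A v ∨ oN A v ∨ oW A v ∨ oS A v}

/-- oriented boundary edges (with `A` on the left) -/
def Ed (u v : Pt) : Prop :=
  (v = (u.1 + 1, u.2) ∧ oE A u) ∨ (v = (u.1, u.2 + 1) ∧ oN A u) ∨
  (v = (u.1 - 1, u.2) ∧ oW A u) ∨ (v = (u.1, u.2 - 1) ∧ oS A u)

open Classical in
/-- the next boundary vertex -/
noncomputable def nx (v : Pt) : Pt :=
  if oE A v then (v.1 + 1, v.2) else if oN A v then (v.1, v.2 + 1)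
  else if oW A v then (v.1 - 1, v.2) else if oS A v then (v.1, v.2 - 1) else v

variable {A}

theorem ed_nx {v : Pt} (h : v ∈ Bd A) : Ed A v (nx A v) := by
  unfold nx Ed
  split_ifs with h1 h2 h3 h4
  · exact Or.inl ⟨rfl, h1⟩
  · exact Or.inr (Or.inl ⟨rfl, h2⟩)
  · exact Or.inr (Or.inr (Or.inl ⟨rfl, h3⟩))
  · exact Or.inr (Or.inr (Or.inr ⟨rfl, h4⟩))
  · rcases h with h | h | h | h
    · exact absurd h h1
    · exact absurd h h2
    · exact absurd h h3
    · exact absurd h h4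

theorem Ed.adj {u v : Pt} (h : Ed A u v) : Adj u v := by
  rw [adj_cases]
  rcases h with h | h | h | h
  · exact Or.inl h.1
  · exact Or.inr (Or.inr (Or.inl h.1))
  · exact Or.inr (Or.inl h.1)
  · exact Or.inr (Or.inr (Or.inr h.1))

theorem Ed.mem {u v : Pt} (h : Ed A u v) : v ∈ Bd A := by
  obtain ⟨x, y⟩ := u
  unfold Bd
  simp only [Set.mem_ofPred_eq]
  rcases h with ⟨rfl, h1, h2⟩ | ⟨rfl, h1, h2⟩ | ⟨rfl, h1, h2⟩ | ⟨rfl, h1, h2⟩
  · simp only [oE, oN, oW, oS, add_sub_cancel_right] at *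
    tauto
  · simp only [oE, oN, oW, oS, add_sub_cancel_right] at *
    tauto
  · simp only [oE, oN, oW, oS] at *
    tauto
  · simp only [oE, oN, oW, oS] at *
    tauto

theorem Ed.not_symm {u v : Pt} (h : Ed A u v) : ¬ Ed A v u := by
  obtain ⟨x, y⟩ := u
  rcases h with ⟨rfl, h1, h2⟩ | ⟨rfl, h1, h2⟩ | ⟨rfl, h1, h2⟩ | ⟨rfl, h1, h2⟩
  · rintro (⟨e, k1, k2⟩ | ⟨e, k1, k2⟩ | ⟨e, k1, k2⟩ | ⟨e, k1, k2⟩)
    · simp only [Prod.mk.injEq] at e; omega
    · simp only [Prod.mk.injEq] at e; omega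
    · simp only [add_sub_cancel_right] at *
      tauto
    · simp only [Prod.mk.injEq] at e; omega
  · rintro (⟨e, k1, k2⟩ | ⟨e, k1, k2⟩ | ⟨e, k1, k2⟩ | ⟨e, k1, k2⟩)
    · simp only [Prod.mk.injEq] at e; omega
    · simp only [Prod.mk.injEq] at e; omega
    · simp only [Prod.mk.injEq] at e; omega
    · simp only [add_sub_cancel_right] at *
      tauto
  · rintro (⟨e, k1, k2⟩ | ⟨e, k1, k2⟩ | ⟨e, k1, k2⟩ | ⟨e, k1, k2⟩)
    · simp only [add_sub_cancel_right] at *
      tauto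
    · simp only [Prod.mk.injEq] at e; omega
    · simp only [Prod.mk.injEq] at e; omega
    · simp only [Prod.mk.injEq] at e; omega
  · rintro (⟨e, k1, k2⟩ | ⟨e, k1, k2⟩ | ⟨e, k1, k2⟩ | ⟨e, k1, k2⟩)
    · simp only [Prod.mk.injEq] at e; omega
    · simp only [add_sub_cancel_right] at *
      tauto
    · simp only [Prod.mk.injEq] at e; omega
    · simp only [Prod.mk.injEq] at e; omega

/-- the four faces at the end point of an oriented boundary edge, in terms of its direction -/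
theorem Ed.cases {u : Pt} {x y : ℤ} (h : Ed A u (x, y)) :
    (u = (x - 1, y) ∧ (x - 1, y) ∈ A ∧ (x - 1, y - 1) ∉ A) ∨
    (u = (x, y - 1) ∧ (x - 1, y - 1) ∈ A ∧ (x, y - 1) ∉ A) ∨
    (u = (x + 1, y) ∧ (x, y - 1) ∈ A ∧ (x, y) ∉ A) ∨
    (u = (x, y + 1) ∧ (x, y) ∈ A ∧ (x - 1, y) ∉ A) := by
  obtain ⟨p, q⟩ := u
  rcases h with ⟨e, h1, h2⟩ | ⟨e, h1, h2⟩ | ⟨e, h1, h2⟩ | ⟨e, h1, h2⟩
  · simp only [Prod.mk.injEq] at e
    obtain ⟨rfl, rfl⟩ := e
    left
    simp only [add_sub_cancel_right] at h1 h2 ⊢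
    exact ⟨trivial, h1, h2⟩
  · simp only [Prod.mk.injEq] at e
    obtain ⟨rfl, rfl⟩ := e
    right; left
    simp only [add_sub_cancel_right] at h1 h2 ⊢
    exact ⟨trivial, h1, h2⟩
  · simp only [Prod.mk.injEq] at e
    obtain ⟨rfl, rfl⟩ := e
    right; right; left
    simp only [sub_add_cancel] at h1 h2 ⊢
    exact ⟨trivial, h1, h2⟩
  · simp only [Prod.mk.injEq] at e
    obtain ⟨rfl, rfl⟩ := e
    right; right; right
    simp only [sub_add_cancel] at h1 h2 ⊢
    exact ⟨trivial, h1, h2⟩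

theorem ed_unique (hA : NoPinch A) {u u' v : Pt} (h : Ed A u v) (h' : Ed A u' v) : u = u' := by
  obtain ⟨x, y⟩ := v
  have hp := hA x y
  rcases h.cases with ⟨rfl, h1, h2⟩ | ⟨rfl, h1, h2⟩ | ⟨rfl, h1, h2⟩ | ⟨rfl, h1, h2⟩ <;>
    rcases h'.cases with ⟨rfl, h3, h4⟩ | ⟨rfl, h3, h4⟩ | ⟨rfl, h3, h4⟩ | ⟨rfl, h3, h4⟩ <;>
    first | rfl | (exfalso; tauto)

theorem bd_finite (hf : A.Finite) : (Bd A).Finite := by
  refine (((hf.union (hf.image fun v : Pt => ((v.1 + 1, v.2) : Pt))).union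
    (hf.image fun v : Pt => ((v.1 + 1, v.2 + 1) : Pt))).union
    (hf.image fun v : Pt => ((v.1, v.2 + 1) : Pt))).subset ?_
  rintro ⟨x, y⟩ (h | h | h | h)
  · exact Or.inl (Or.inl (Or.inl h.1))
  · refine Or.inl (Or.inl (Or.inr ⟨_, h.1, ?_⟩))
    simp
  · refine Or.inl (Or.inr ⟨_, h.1, ?_⟩)
    simp
  · refine Or.inr ⟨_, h.1, ?_⟩
    simp

theorem bd_nonempty (hf : A.Finite) (hne : A.Nonempty) : (Bd A).Nonempty := by
  obtain ⟨f, hfA, hmin⟩ := Set.exists_min_image A (fun v : Pt => v.1) hf hne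
  refine ⟨(f.1, f.2 + 1), Or.inr (Or.inr (Or.inr ⟨?_, ?_⟩))⟩
  · simpa using hfA
  · intro h
    have := hmin _ h
    simp at this

theorem mem_periodic (hf : A.Finite) (hA : NoPinch A) {v : Pt} (hv : v ∈ Bd A) :
    v ∈ periodicPts (nx A) := by
  have hm : Set.MapsTo (nx A) (Bd A) (Bd A) := fun u hu => (ed_nx hu).mem
  have : Finite (Bd A) := (bd_finite hf).to_subtype
  set g : Bd A → Bd A := hm.restrict (nx A) (Bd A) (Bd A) with hg
  have hinj : Injective g := by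
    intro u u' h
    have h1 : nx A u = nx A u' := congrArg Subtype.val h
    apply Subtype.ext
    have e1 := ed_nx u.2
    have e2 := ed_nx u'.2
    rw [← h1] at e2
    exact ed_unique hA e1 e2
  obtain ⟨n, hn, hp⟩ := hinj.mem_periodicPts ⟨v, hv⟩
  refine ⟨n, hn, ?_⟩
  have key : ∀ m : ℕ, ∀ u : Bd A, ((g^[m] u : Bd A) : Pt) = (nx A)^[m] u := by
    intro m
    induction m with
    | zero => intro u; rfl
    | succ m ih =>
      intro u
      rw [iterate_succ_apply, iterate_succ_apply, ih]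
      rfl
  have h1 := key n ⟨v, hv⟩
  rw [hp.eq] at h1
  exact h1.symm

theorem iter_mem {v : Pt} (hv : v ∈ Bd A) (m : ℕ) : (nx A)^[m] v ∈ Bd A := by
  induction m with
  | zero => exact hv
  | succ m ih => rw [iterate_succ_apply']; exact (ed_nx ih).mem

/-- **Existence of the boundary cycle.** -/
theorem exists_cycle' (hf : A.Finite) (hne : A.Nonempty) (hA : NoPinch A) :
    ∃ γ : LatCycle, ∀ i, Ed A (γ.c i) (γ.c (i + 1)) := by
  obtain ⟨v, hv⟩ := bd_nonempty hf hne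
  have hp := mem_periodic hf hA hv
  set n := minimalPeriod (nx A) v with hn
  have hpos : 0 < n := minimalPeriod_pos_of_mem_periodicPts hp
  have hper : (nx A)^[n] v = v := iterate_minimalPeriod
  have h3 : 3 ≤ n := by
    by_contra hcon
    have e1 := ed_nx hv
    have h12 : n = 1 ∨ n = 2 := by omega
    rcases h12 with h | h
    · rw [h] at hper
      have h2 : nx A v = v := hper
      rw [h2] at e1
      have := e1.adj
      simp [Adj] at this
    · rw [h] at hper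
      have h2 : nx A (nx A v) = v := hper
      have e2 := ed_nx e1.mem
      rw [h2] at e2
      exact e1.not_symm e2
  have : NeZero n := ⟨by omega⟩
  have : Fact (1 < n) := ⟨by omega⟩
  have hsucc : ∀ i : ZMod n, (nx A)^[(i + 1).val] v = nx A ((nx A)^[i.val] v) := by
    intro i
    rw [ZMod.val_add, ZMod.val_one]
    have e : (nx A)^[(i.val + 1) % n] v = (nx A)^[i.val + 1] v :=
      iterate_mod_minimalPeriod_eq (f := nx A) (x := v) (n := i.val + 1)
    rw [e, iterate_succ_apply']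
  refine ⟨{ n := n, hn := h3, c := fun i => (nx A)^[i.val] v, inj := ?_, adj := ?_ }, ?_⟩
  · intro i j h
    have h' : (nx A)^[i.val] v = (nx A)^[j.val] v := h
    rw [iterate_eq_iterate_iff_of_lt_minimalPeriod (ZMod.val_lt i) (ZMod.val_lt j)] at h'
    exact ZMod.val_injective n h'
  · intro i
    show Adj ((nx A)^[i.val] v) ((nx A)^[(i + 1).val] v)
    rw [hsucc]
    exact (ed_nx (iter_mem hv _)).adj
  · intro i
    show Ed A ((nx A)^[i.val] v) ((nx A)^[(i + 1).val] v)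
    rw [hsucc]
    exact ed_nx (iter_mem hv _)

/-- a vertical edge of the cycle separates `A` from its complement -/
theorem vedge_sep {γ : LatCycle} (hγ : ∀ i, Ed A (γ.c i) (γ.c (i + 1))) {x y : ℤ}
    (h : γ.vedge x y) : ¬ ((x, y) ∈ A ↔ (x - 1, y) ∈ A) := by
  obtain ⟨i, ⟨h1, h2⟩ | ⟨h1, h2⟩⟩ := h
  · have := hγ i
    rw [h1, h2] at this
    rcases this.cases with ⟨e, k1, k2⟩ | ⟨e, k1, k2⟩ | ⟨e, k1, k2⟩ | ⟨e, k1, k2⟩
    · simp only [Prod.mk.injEq] at e; omega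
    · simp only [add_sub_cancel_right] at k1 k2
      tauto
    · simp only [Prod.mk.injEq] at e; omega
    · simp only [Prod.mk.injEq] at e; omega
  · have := hγ i
    rw [h1, h2] at this
    rcases this.cases with ⟨e, k1, k2⟩ | ⟨e, k1, k2⟩ | ⟨e, k1, k2⟩ | ⟨e, k1, k2⟩
    · simp only [Prod.mk.injEq] at e; omega
    · simp only [Prod.mk.injEq] at e; omega
    · simp only [Prod.mk.injEq] at e; omega
    · tauto

/-- a horizontal edge of the cycle separates `A` from its complement -/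
theorem hedge_sep {γ : LatCycle} (hγ : ∀ i, Ed A (γ.c i) (γ.c (i + 1))) {x y : ℤ}
    (h : γ.hedge x y) : ¬ ((x, y) ∈ A ↔ (x, y - 1) ∈ A) := by
  obtain ⟨i, ⟨h1, h2⟩ | ⟨h1, h2⟩⟩ := h
  · have := hγ i
    rw [h1, h2] at this
    rcases this.cases with ⟨e, k1, k2⟩ | ⟨e, k1, k2⟩ | ⟨e, k1, k2⟩ | ⟨e, k1, k2⟩
    · simp only [add_sub_cancel_right] at k1 k2
      tauto
    · simp only [Prod.mk.injEq] at e; omega
    · simp only [Prod.mk.injEq] at e; omega
    · simp only [Prod.mk.injEq] at e; omega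
  · have := hγ i
    rw [h1, h2] at this
    rcases this.cases with ⟨e, k1, k2⟩ | ⟨e, k1, k2⟩ | ⟨e, k1, k2⟩ | ⟨e, k1, k2⟩
    · simp only [Prod.mk.injEq] at e; omega
    · simp only [Prod.mk.injEq] at e; omega
    · tauto
    · simp only [Prod.mk.injEq] at e; omega

/-- steps inside `A` and inside its complement do not cross the cycle -/
theorem fstep_of {γ : LatCycle} (hγ : ∀ i, Ed A (γ.c i) (γ.c (i + 1))) {f g : Pt}
    (h : Adj f g) (hfg : f ∈ A ↔ g ∈ A) : γ.FStep f g := by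
  obtain ⟨x, y⟩ := f
  rw [adj_cases] at h
  rcases h with rfl | rfl | rfl | rfl
  · refine .right x y fun h => vedge_sep hγ h ?_
    rw [add_sub_cancel_right]
    exact hfg.symm
  · exact .left x y fun h => vedge_sep hγ h hfg
  · refine .up x y fun h => hedge_sep hγ h ?_
    rw [add_sub_cancel_right]
    exact hfg.symm
  · exact .down x y fun h => hedge_sep hγ h hfg

/-- **A finite connected set of faces, with connected complement and without pinched vertices, is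
the set of the faces enclosed by a simple lattice polygon.** -/
theorem exists_cycle (hf : A.Finite) (hne : A.Nonempty) (hA : NoPinch A)
    (hc : ∀ f ∈ A, ∀ g ∈ A, Cn A f g)
    (hcc : ∀ f, f ∉ A → ∀ M : ℤ, ∃ g, g.1 < M ∧ Cn Aᶜ f g) :
    ∃ γ : LatCycle, ∀ f, γ.inside f ↔ f ∈ A := by
  obtain ⟨γ, hγ⟩ := exists_cycle' hf hne hA
  refine ⟨γ, ?_⟩
  have hout : ∀ f, f ∉ A → ¬ γ.inside f := by
    intro f hfA hin
    obtain ⟨M, hM0, hM⟩ := LatCycle.exists_bound (γ := γ)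
    obtain ⟨g, hg, hc⟩ := hcc f hfA (-M)
    have h1 : γ.Reach f g := by
      unfold Cn at hc
      refine rtg_mono (fun a b hab => ?_) hc
      exact fstep_of hγ hab.1 ⟨fun h => absurd h hab.2.1, fun h => absurd h hab.2.2⟩
    exact LatCycle.not_inside_left hM hg (h1.inside_iff.1 hin)
  have hin : ∃ f ∈ A, γ.inside f := by
    have h0 := hγ 0
    obtain ⟨⟨p, q⟩, hpq⟩ : ∃ w, γ.c 0 = w := ⟨_, rfl⟩
    rw [hpq] at h0
    rcases h0 with ⟨e, h1, h2⟩ | ⟨e, h1, h2⟩ | ⟨e, h1, h2⟩ | ⟨e, h1, h2⟩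
    · refine ⟨(p, q), h1, ?_⟩
      rw [LatCycle.inside_iff_h' p q ⟨0, Or.inl ⟨hpq, e⟩⟩]
      exact hout _ h2
    · refine ⟨(p - 1, q), h1, ?_⟩
      by_contra hcon
      exact hout _ h2 ((LatCycle.inside_iff_v' p q ⟨0, Or.inl ⟨hpq, e⟩⟩).2 hcon)
    · refine ⟨(p - 1, q - 1), h1, ?_⟩
      by_contra hcon
      refine hout _ h2 ((LatCycle.inside_iff_h' (p - 1) q ⟨0, Or.inr ⟨?_, e⟩⟩).2 hcon)
      rw [sub_add_cancel]
      exact hpq
    · refine ⟨(p, q - 1), h1, ?_⟩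
      rw [LatCycle.inside_iff_v' p (q - 1) ⟨0, Or.inr ⟨?_, e⟩⟩]
      · exact hout _ h2
      · rw [sub_add_cancel]
        exact hpq
  obtain ⟨f0, hf0, hin0⟩ := hin
  intro f
  constructor
  · intro h
    by_contra hcon
    exact hout f hcon h
  · intro h
    have h1 : γ.Reach f0 f := by
      have := hc f0 hf0 f h
      unfold Cn at this
      refine rtg_mono (fun a b hab => ?_) this
      exact fstep_of hγ hab.1 ⟨fun _ => hab.2.2, fun _ => hab.2.1⟩
    exact h1.inside_iff.1 hin0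

end

end Vale.Agent.P155.X877
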