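import Vale.Agent.P155.X877.Corner
import Vale.Agent.P155.X877.LogOn

/-!
# P155, existence of Temperleyan approximations: squares of a grid inside a simply connected domain
-/

namespace Vale.Agent.P155.X877

open Topology Filter

/-- closed square with index `b` of the grid `ℓ ℤ²` -/
def sq (ℓ : ℝ) (b : Pt) : Set ℂ := {z | ℓ * b.1 ≤ z.re ∧ z.re ≤ ℓ * (b.1 + 1) ∧
  ℓ * b.2 ≤ z.im ∧ z.im ≤ ℓ * (b.2 + 1)}

/-- the square and its eight neighbours -/
def sq3 (ℓ : ℝ) (b : Pt) : Set ℂ := {z | ℓ * (b.1 - 1) ≤ z.re ∧ z.re ≤ ℓ * (b.1 + 2) ∧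
  ℓ * (b.2 - 1) ≤ z.im ∧ z.im ≤ ℓ * (b.2 + 2)}

/-- index of the square of `z` -/
noncomputable def blk (ℓ : ℝ) (z : ℂ) : Pt := (⌊z.re / ℓ⌋, ⌊z.im / ℓ⌋)

/-- union of the squares of a set of indices -/
def reg (ℓ : ℝ) (B : Set Pt) : Set ℂ := {z | ∃ b ∈ B, z ∈ sq ℓ b}

/-- all coordinates differ by at most one -/
def Near (b c : Pt) : Prop := |b.1 - c.1| ≤ 1 ∧ |b.2 - c.2| ≤ 1

variable {ℓ : ℝ}

theorem floor_mem (hℓ : 0 < ℓ) (x : ℝ) : ℓ * ⌊x / ℓ⌋ ≤ x ∧ x ≤ ℓ * (⌊x / ℓ⌋ + 1) := by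
  have h1 := Int.floor_le (x / ℓ)
  have h2 := (Int.lt_floor_add_one (x / ℓ)).le
  rw [le_div_iff₀ hℓ] at h1
  rw [div_le_iff₀ hℓ] at h2
  constructor <;> linarith

theorem mem_sq_blk (hℓ : 0 < ℓ) (z : ℂ) : z ∈ sq ℓ (blk ℓ z) :=
  ⟨(floor_mem hℓ z.re).1, (floor_mem hℓ z.re).2, (floor_mem hℓ z.im).1, (floor_mem hℓ z.im).2⟩

theorem int_near {a b : ℤ} {x : ℝ} (hℓ : 0 < ℓ) (h1 : ℓ * a ≤ x) (h2 : x ≤ ℓ * (a + 1))
    (h3 : ℓ * b ≤ x) (h4 : x ≤ ℓ * (b + 1)) : |a - b| ≤ 1 := by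
  have h5 : (a : ℝ) ≤ b + 1 := le_of_mul_le_mul_left (h1.trans h4) hℓ
  have h6 : (b : ℝ) ≤ a + 1 := le_of_mul_le_mul_left (h3.trans h2) hℓ
  have h7 : a ≤ b + 1 := by exact_mod_cast h5
  have h8 : b ≤ a + 1 := by exact_mod_cast h6
  rw [abs_le]
  constructor <;> linarith

theorem near_of_mem (hℓ : 0 < ℓ) {b c : Pt} {z : ℂ} (hb : z ∈ sq ℓ b) (hc : z ∈ sq ℓ c) :
    Near b c :=
  ⟨int_near hℓ hb.1 hb.2.1 hc.1 hc.2.1, int_near hℓ hb.2.2.1 hb.2.2.2 hc.2.2.1 hc.2.2.2⟩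

theorem Near.symm {b c : Pt} (h : Near b c) : Near c b := by
  unfold Near at *
  rw [abs_sub_comm c.1, abs_sub_comm c.2]
  exact h

theorem sq_sub_sq3 (hℓ : 0 < ℓ) {a b : Pt} (h : Near a b) : sq ℓ b ⊆ sq3 ℓ a := by
  rintro z ⟨h1, h2, h3, h4⟩
  have h5 := abs_le.1 h.1
  have h6 := abs_le.1 h.2
  have a1 : ((a.1 : ℝ) - 1) ≤ b.1 := by have : a.1 - 1 ≤ b.1 := by omega
                                        exact_mod_cast this
  have a2 : (b.1 : ℝ) + 1 ≤ a.1 + 2 := by have : b.1 + 1 ≤ a.1 + 2 := by omega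
                                          exact_mod_cast this
  have a3 : ((a.2 : ℝ) - 1) ≤ b.2 := by have : a.2 - 1 ≤ b.2 := by omega
                                        exact_mod_cast this
  have a4 : (b.2 : ℝ) + 1 ≤ a.2 + 2 := by have : b.2 + 1 ≤ a.2 + 2 := by omega
                                          exact_mod_cast this
  exact ⟨(mul_le_mul_of_nonneg_left a1 hℓ.le).trans h1, h2.trans (mul_le_mul_of_nonneg_left a2 hℓ.le),
    (mul_le_mul_of_nonneg_left a3 hℓ.le).trans h3, h4.trans (mul_le_mul_of_nonneg_left a4 hℓ.le)⟩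

theorem dist_le_of_coord {z w : ℂ} {r : ℝ} (h1 : |z.re - w.re| ≤ r) (h2 : |z.im - w.im| ≤ r) :
    dist z w ≤ 2 * r := by
  rw [dist_eq_norm]
  have := Complex.norm_le_abs_re_add_abs_im (z - w)
  rw [Complex.sub_re, Complex.sub_im] at this
  linarith

theorem re_le_dist (z w : ℂ) : |z.re - w.re| ≤ dist z w := by
  rw [dist_eq_norm, ← Complex.sub_re]
  exact Complex.abs_re_le_norm _

theorem im_le_dist (z w : ℂ) : |z.im - w.im| ≤ dist z w := by
  rw [dist_eq_norm, ← Complex.sub_im]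
  exact Complex.abs_im_le_norm _

/-- points of neighbouring squares are close -/
theorem dist_le_of_near (hℓ : 0 < ℓ) {b c : Pt} (h : Near b c) {z w : ℂ} (hz : z ∈ sq ℓ b)
    (hw : w ∈ sq ℓ c) : dist z w ≤ 4 * ℓ := by
  obtain ⟨z1, z2, z3, z4⟩ := hz
  obtain ⟨w1, w2, w3, w4⟩ := hw
  have h5 := abs_le.1 h.1
  have h6 := abs_le.1 h.2
  have a1 : (b.1 : ℝ) ≤ c.1 + 1 := by have : b.1 ≤ c.1 + 1 := by omega
                                      exact_mod_cast this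
  have a2 : (c.1 : ℝ) ≤ b.1 + 1 := by have : c.1 ≤ b.1 + 1 := by omega
                                      exact_mod_cast this
  have a3 : (b.2 : ℝ) ≤ c.2 + 1 := by have : b.2 ≤ c.2 + 1 := by omega
                                      exact_mod_cast this
  have a4 : (c.2 : ℝ) ≤ b.2 + 1 := by have : c.2 ≤ b.2 + 1 := by omega
                                      exact_mod_cast this
  have b1 := mul_le_mul_of_nonneg_left a1 hℓ.le
  have b2 := mul_le_mul_of_nonneg_left a2 hℓ.le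
  have b3 := mul_le_mul_of_nonneg_left a3 hℓ.le
  have b4 := mul_le_mul_of_nonneg_left a4 hℓ.le
  have : dist z w ≤ 2 * (2 * ℓ) := by
    apply dist_le_of_coord
    · rw [abs_le]
      constructor <;> linarith
    · rw [abs_le]
      constructor <;> linarith
  linarith

/-- points of the big square of `b` are close to the points of the square of `b` -/
theorem dist_sq3 (hℓ : 0 < ℓ) {b : Pt} {z w : ℂ} (hz : z ∈ sq ℓ b)
    (hw : w ∈ sq3 ℓ b) : dist z w ≤ 4 * ℓ := by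
  obtain ⟨z1, z2, z3, z4⟩ := hz
  obtain ⟨w1, w2, w3, w4⟩ := hw
  have : dist z w ≤ 2 * (2 * ℓ) := by
    apply dist_le_of_coord
    · rw [abs_le]
      constructor <;> linarith
    · rw [abs_le]
      constructor <;> linarith
  linarith

theorem floor_near (hℓ : 0 < ℓ) {x y : ℝ} (h : |x - y| < ℓ) : |⌊x / ℓ⌋ - ⌊y / ℓ⌋| ≤ 1 := by
  have h0 : |x / ℓ - y / ℓ| < 1 := by
    rw [← sub_div, abs_div, abs_of_pos hℓ, div_lt_one hℓ]
    exact h
  have h1 := abs_lt.1 h0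
  have a1 := Int.floor_le (x / ℓ)
  have a2 := Int.lt_floor_add_one (x / ℓ)
  have a3 := Int.floor_le (y / ℓ)
  have a4 := Int.lt_floor_add_one (y / ℓ)
  have b1 : (⌊x / ℓ⌋ : ℝ) < ⌊y / ℓ⌋ + 2 := by linarith
  have b2 : (⌊y / ℓ⌋ : ℝ) < ⌊x / ℓ⌋ + 2 := by linarith
  have c1 : ⌊x / ℓ⌋ < ⌊y / ℓ⌋ + 2 := by exact_mod_cast b1
  have c2 : ⌊y / ℓ⌋ < ⌊x / ℓ⌋ + 2 := by exact_mod_cast b2
  rw [abs_le]
  constructor <;> omega

theorem blk_near (hℓ : 0 < ℓ) {z w : ℂ} (h : dist z w < ℓ) : Near (blk ℓ z) (blk ℓ w) :=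
  ⟨floor_near hℓ ((re_le_dist z w).trans_lt h), floor_near hℓ ((im_le_dist z w).trans_lt h)⟩

theorem eventually_floor (hℓ : 0 < ℓ) (x : ℝ) : ∀ᶠ y in 𝓝 x,
    ℓ * ⌊y / ℓ⌋ ≤ x ∧ x ≤ ℓ * (⌊y / ℓ⌋ + 1) := by
  have hc : Tendsto (fun y : ℝ => y / ℓ) (𝓝 x) (𝓝 (x / ℓ)) := by
    exact (continuous_id.div_const ℓ).tendsto x
  have h1 : ((⌈x / ℓ⌉ : ℤ) : ℝ) - 1 < x / ℓ := by
    have := Int.ceil_lt_add_one (x / ℓ)
    linarith
  have h2 := Int.lt_floor_add_one (x / ℓ)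
  filter_upwards [hc.eventually (lt_mem_nhds h1), hc.eventually (gt_mem_nhds h2)] with y hy1 hy2
  have e1 : ⌈x / ℓ⌉ - 1 ≤ ⌊y / ℓ⌋ := by
    apply Int.le_floor.2
    push_cast
    exact hy1.le
  have e2 : ⌊y / ℓ⌋ ≤ ⌊x / ℓ⌋ := by
    have : ⌊y / ℓ⌋ < ⌊x / ℓ⌋ + 1 := by
      apply Int.floor_lt.2
      push_cast
      exact hy2
    omega
  have f1 : ((⌈x / ℓ⌉ : ℤ) : ℝ) - 1 ≤ (⌊y / ℓ⌋ : ℤ) := by exact_mod_cast e1
  have f2 : ((⌊y / ℓ⌋ : ℤ) : ℝ) ≤ (⌊x / ℓ⌋ : ℤ) := by exact_mod_cast e2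
  have g1 := Int.le_ceil (x / ℓ)
  have g2 := Int.floor_le (x / ℓ)
  have k1 : ((⌊y / ℓ⌋ : ℤ) : ℝ) ≤ x / ℓ := by linarith
  have k2 : x / ℓ ≤ ((⌊y / ℓ⌋ : ℤ) : ℝ) + 1 := by linarith
  rw [le_div_iff₀ hℓ] at k1
  rw [div_le_iff₀ hℓ] at k2
  constructor <;> linarith

theorem eventually_blk (hℓ : 0 < ℓ) (w : ℂ) : ∀ᶠ z in 𝓝 w, w ∈ sq ℓ (blk ℓ z) := by
  have h1 := (Complex.continuous_re.tendsto w).eventually (eventually_floor hℓ w.re)
  have h2 := (Complex.continuous_im.tendsto w).eventually (eventually_floor hℓ w.im)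
  filter_upwards [h1, h2] with z hz1 hz2
  exact ⟨hz1.1, hz1.2, hz2.1, hz2.2⟩

/-- a point which is not in the interior of the union is in a square which is not in the family -/
theorem exists_off (hℓ : 0 < ℓ) {B : Set Pt} {w : ℂ} (h : w ∉ interior (reg ℓ B)) :
    ∃ c, c ∉ B ∧ w ∈ sq ℓ c := by
  by_contra hcon
  push Not at hcon
  apply h
  rw [mem_interior_iff_mem_nhds]
  filter_upwards [eventually_blk hℓ w] with z hz
  by_contra hzr
  refine hcon (blk ℓ z) (fun hB => hzr ⟨_, hB, mem_sq_blk hℓ z⟩) hz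

theorem isClosed_sq (ℓ : ℝ) (b : Pt) : IsClosed (sq ℓ b) := by
  have e : sq ℓ b = {z : ℂ | ℓ * b.1 ≤ z.re} ∩ ({z : ℂ | z.re ≤ ℓ * (b.1 + 1)} ∩
      ({z : ℂ | ℓ * b.2 ≤ z.im} ∩ {z : ℂ | z.im ≤ ℓ * (b.2 + 1)})) := rfl
  rw [e]
  exact (isClosed_le continuous_const Complex.continuous_re).inter
    ((isClosed_le Complex.continuous_re continuous_const).inter
    ((isClosed_le continuous_const Complex.continuous_im).inter
    (isClosed_le Complex.continuous_im continuous_const)))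

theorem reg_eq (ℓ : ℝ) (B : Set Pt) : reg ℓ B = ⋃ b ∈ B, sq ℓ b := by
  ext z
  simp [reg]

theorem isClosed_reg (ℓ : ℝ) {B : Set Pt} (hB : B.Finite) : IsClosed (reg ℓ B) := by
  rw [reg_eq]
  exact hB.isClosed_biUnion fun b _ => isClosed_sq ℓ b

theorem bounded_sq (ℓ : ℝ) (b : Pt) : Bornology.IsBounded (sq ℓ b) := by
  have : sq ℓ b ⊆ Set.Icc (ℓ * b.1) (ℓ * (b.1 + 1)) ×ℂ Set.Icc (ℓ * b.2) (ℓ * (b.2 + 1)) := by
    rintro z ⟨h1, h2, h3, h4⟩
    rw [Complex.mem_reProdIm]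
    exact ⟨⟨h1, h2⟩, h3, h4⟩
  refine Bornology.IsBounded.subset ?_ this
  exact (Metric.isBounded_Icc _ _).reProdIm (Metric.isBounded_Icc _ _)

theorem bounded_reg (ℓ : ℝ) {B : Set Pt} (hB : B.Finite) : Bornology.IsBounded (reg ℓ B) := by
  rw [reg_eq, Bornology.isBounded_biUnion hB]
  exact fun b _ => bounded_sq ℓ b

/-! ## Good squares -/

/-- squares whose big square is inside `Ω` -/
def Gd (ℓ : ℝ) (Ω : Set ℂ) : Set Pt := {b | sq3 ℓ b ⊆ Ω}

variable {Ω : Set ℂ}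

theorem gd_finite (hℓ : 0 < ℓ) (hb : Bornology.IsBounded Ω) : (Gd ℓ Ω).Finite := by
  obtain ⟨R, hR⟩ := hb.subset_closedBall 0
  obtain ⟨M, hM⟩ := exists_nat_gt (R / ℓ)
  rw [div_lt_iff₀ hℓ] at hM
  refine ((Set.finite_Icc (-(M : ℤ)) M).prod (Set.finite_Icc (-(M : ℤ)) M)).subset ?_
  intro b hbG
  have h1 : (⟨ℓ * b.1, ℓ * b.2⟩ : ℂ) ∈ sq3 ℓ b := by
    refine ⟨?_, ?_, ?_, ?_⟩ <;> simp only <;> nlinarith
  have h2 := hR (hbG h1)
  rw [Metric.mem_closedBall, dist_zero_right] at h2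
  have h3 := (Complex.abs_re_le_norm _).trans h2
  have h4 := (Complex.abs_im_le_norm _).trans h2
  simp only [abs_mul, abs_of_pos hℓ] at h3 h4
  have h5 : |(b.1 : ℝ)| ≤ M := by nlinarith [abs_nonneg (b.1 : ℝ)]
  have h6 : |(b.2 : ℝ)| ≤ M := by nlinarith [abs_nonneg (b.2 : ℝ)]
  have h7 : |b.1| ≤ (M : ℤ) := by exact_mod_cast h5
  have h8 : |b.2| ≤ (M : ℤ) := by exact_mod_cast h6
  simp only [Set.mem_prod, Set.mem_Icc]
  exact ⟨abs_le.1 h7, abs_le.1 h8⟩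

theorem adj_row {p r q : ℤ} (h1 : p ≤ r + 1) (h2 : r ≤ p + 1) (h : p ≠ r) :
    Adj (p, q) (r, q) := by
  have h3 : r = p + 1 ∨ r = p - 1 := by omega
  rcases h3 with rfl | rfl
  · exact adj_cases.2 (Or.inl rfl)
  · exact adj_cases.2 (Or.inr (Or.inl rfl))

theorem adj_col {p q s : ℤ} (h1 : q ≤ s + 1) (h2 : s ≤ q + 1) (h : q ≠ s) :
    Adj (p, q) (p, s) := by
  have h3 : s = q + 1 ∨ s = q - 1 := by omega
  rcases h3 with rfl | rfl
  · exact adj_cases.2 (Or.inr (Or.inr (Or.inl rfl)))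
  · exact adj_cases.2 (Or.inr (Or.inr (Or.inr rfl)))

/-- a square of the filled set next to a square off it: there is a square of the component which is
next to both -/
theorem exists_comp {A : Set Pt} {b c : Pt} (hb : b ∈ Fill A) (hc : c ∉ Fill A) (h : Near b c) :
    ∃ a ∈ A, Near a b ∧ Near a c := by
  by_cases hbA : b ∈ A
  · exact ⟨b, hbA, by simp [Near], h⟩
  · obtain ⟨p, q⟩ := b
    obtain ⟨r, s⟩ := c
    have h1 := abs_le.1 h.1
    have h2 := abs_le.1 h.2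
    simp only at h1 h2
    -- the corner is next to `b`
    have hne1 : r ≠ p := by
      rintro rfl
      have h3 : s = q + 1 ∨ s = q - 1 ∨ s = q := by omega
      rcases h3 with rfl | rfl | rfl
      · exact hc (hole_adj (adj_cases.2 (Or.inr (Or.inr (Or.inl rfl)))) hb hbA)
      · exact hc (hole_adj (adj_cases.2 (Or.inr (Or.inr (Or.inr rfl)))) hb hbA)
      · exact hc hb
    have hne2 : s ≠ q := by
      rintro rfl
      have h3 : r = p + 1 ∨ r = p - 1 := by omega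
      rcases h3 with rfl | rfl
      · exact hc (hole_adj (adj_cases.2 (Or.inl rfl)) hb hbA)
      · exact hc (hole_adj (adj_cases.2 (Or.inr (Or.inl rfl))) hb hbA)
    have hadj : Adj (p, q) (r, q) := adj_row (by omega) (by omega) (Ne.symm hne1)
    have hadj2 : Adj (r, q) (r, s) := adj_col (by omega) (by omega) (Ne.symm hne2)
    have he : (r, q) ∈ Fill A := hole_adj hadj hb hbA
    have heA : (r, q) ∈ A := by
      by_contra hcon
      exact hc (hole_adj hadj2 he hcon)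
    refine ⟨(r, q), heA, ⟨?_, ?_⟩, ⟨?_, ?_⟩⟩ <;> simp only [abs_le] <;> constructor <;> omega

section fill

variable (hℓ : 0 < ℓ) {A : Set Pt} (hA : A ⊆ Gd ℓ Ω)

include hℓ hA in
/-- points of the filled set which are not in its interior are in `Ω` -/
theorem fill_bdry {w : ℂ} (hw : w ∈ reg ℓ (Fill A)) (hi : w ∉ interior (reg ℓ (Fill A))) :
    w ∈ Ω := by
  obtain ⟨c, hc, hwc⟩ := exists_off hℓ hi
  obtain ⟨b, hb, hwb⟩ := hw
  obtain ⟨a, ha, h1, h2⟩ := exists_comp hb hc (near_of_mem hℓ hwb hwc)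
  exact hA ha (sq_sub_sq3 hℓ h1 hwb)

include hℓ hA in
/-- **the filled set is inside `Ω`** -/
theorem fill_sub (ho : IsOpen Ω) (hbd : Bornology.IsBounded Ω) (hsc : SimplyConnectedSpace Ω) :
    reg ℓ (Fill A) ⊆ Ω := by
  have hAf : A.Finite := (gd_finite hℓ hbd).subset hA
  intro w hw
  by_contra hwΩ
  have hwi : w ∈ interior (reg ℓ (Fill A)) := by
    by_contra hcon
    exact hwΩ (fill_bdry hℓ hA hw hcon)
  refine not_logOn_frontier isOpen_interior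
    ((bounded_reg ℓ (fill_finite hAf)).subset interior_subset) hwi ?_
  refine (logOn_simplyConnected ho hsc hwΩ).mono fun z hz => ?_
  rw [isOpen_interior.frontier_eq] at hz
  have h1 : z ∈ reg ℓ (Fill A) :=
    closure_minimal interior_subset (isClosed_reg ℓ (fill_finite hAf)) hz.1
  exact fill_bdry hℓ hA h1 hz.2

/-- small squares are inside the big ones -/
theorem sq_third (hℓ : 0 < ℓ) (f : Pt) : sq (ℓ / 3) f ⊆ sq ℓ (f.1 / 3, f.2 / 3) := by
  rintro z ⟨h1, h2, h3, h4⟩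
  have e : ∀ x : ℤ, ℓ * ((x / 3 : ℤ) : ℝ) ≤ ℓ / 3 * x ∧
      ℓ / 3 * (x + 1) ≤ ℓ * (((x / 3 : ℤ) : ℝ) + 1) := by
    intro x
    have h5 : 3 * (x / 3) ≤ x := by omega
    have h6 : x + 1 ≤ 3 * (x / 3 + 1) := by omega
    have h7 : (3 : ℝ) * ((x / 3 : ℤ) : ℝ) ≤ x := by exact_mod_cast h5
    have h8 : (x : ℝ) + 1 ≤ 3 * (((x / 3 : ℤ) : ℝ) + 1) := by exact_mod_cast h6
    have h9 : 0 < ℓ / 3 := by positivity
    constructor
    · have := mul_le_mul_of_nonneg_left h7 h9.le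
      linarith
    · have := mul_le_mul_of_nonneg_left h8 h9.le
      linarith
  exact ⟨(e f.1).1.trans h1, h2.trans (e f.1).2, (e f.2).1.trans h3, h4.trans (e f.2).2⟩

/-- a face of the refinement in a square which is not in the filled set is next to a square of the
component -/
theorem corner_comp {f : Pt} (hf : f ∈ Ref (Fill A)) (hb : (f.1 / 3, f.2 / 3) ∉ Fill A) :
    ∃ a ∈ A, Near a (f.1 / 3, f.2 / 3) := by
  obtain ⟨b, hbF, -, h1, h2, h3⟩ := ref_near hf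
  have hn : Near b (f.1 / 3, f.2 / 3) := by
    constructor
    · simp only [abs_le]
      constructor <;> omega
    · simp only [abs_le]
      constructor <;> omega
  by_cases hbA : b ∈ A
  · exact ⟨b, hbA, hn⟩
  · exfalso
    apply hb
    obtain ⟨p, q⟩ := b
    simp only at h1 h2 h3
    have h4 : f.1 / 3 = p + 1 ∨ f.1 / 3 = p - 1 ∨ f.1 / 3 = p := by omega
    rw [← h3]
    rcases h4 with h4 | h4 | h4
    · rw [h4]
      exact hole_adj (adj_cases.2 (Or.inl rfl)) hbF hbA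
    · rw [h4]
      exact hole_adj (adj_cases.2 (Or.inr (Or.inl rfl))) hbF hbA
    · rw [h4]
      exact hbF

include hℓ hA in
theorem ref_sub (ho : IsOpen Ω) (hbd : Bornology.IsBounded Ω) (hsc : SimplyConnectedSpace Ω) :
    reg (ℓ / 3) (Ref (Fill A)) ⊆ Ω := by
  rintro z ⟨f, hf, hz⟩
  have hz' := sq_third hℓ f hz
  by_cases hb : (f.1 / 3, f.2 / 3) ∈ Fill A
  · exact fill_sub hℓ hA ho hbd hsc ⟨_, hb, hz'⟩
  · obtain ⟨a, ha, hn⟩ := corner_comp hf hb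
    exact hA ha (sq_sub_sq3 hℓ hn hz')

/-- the filled set is in the refinement -/
theorem reg_sub (hℓ : 0 < ℓ) (B : Set Pt) : reg ℓ B ⊆ reg (ℓ / 3) (Ref B) := by
  rintro z ⟨⟨p, q⟩, hb, h1, h2, h3, h4⟩
  simp only at h1 h2 h3 h4
  have h9 : 0 < ℓ / 3 := by positivity
  have key : ∀ (x : ℝ) (p : ℤ), ℓ * p ≤ x → x ≤ ℓ * (p + 1) →
      ∃ k : ℤ, k / 3 = p ∧ ℓ / 3 * k ≤ x ∧ x ≤ ℓ / 3 * (k + 1) := by
    intro x p h1 h2
    rcases le_total x (ℓ / 3 * (3 * p + 1)) with h | h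
    · refine ⟨3 * p, by omega, ?_, ?_⟩
      · push_cast; linarith
      · push_cast; linarith
    · rcases le_total x (ℓ / 3 * (3 * p + 2)) with h' | h'
      · refine ⟨3 * p + 1, by omega, ?_, ?_⟩
        · push_cast; linarith
        · push_cast; linarith
      · refine ⟨3 * p + 2, by omega, ?_, ?_⟩
        · push_cast; linarith
        · push_cast; linarith
  obtain ⟨k, hk, k1, k2⟩ := key z.re p h1 h2
  obtain ⟨m, hm, m1, m2⟩ := key z.im q h3 h4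
  exact ⟨(k, m), ref_of_blk (by simp only; rw [hk, hm]; exact hb), k1, k2, m1, m2⟩

end fill

/-! ## The component of a point -/

theorem near_gd (hℓ : 0 < ℓ) {p : ℂ} (hp : Metric.ball p (10 * ℓ) ⊆ Ω) {b : Pt}
    (hb : Near b (blk ℓ p)) : b ∈ Gd ℓ Ω := by
  intro z hz
  apply hp
  rw [Metric.mem_ball]
  have h0 : (⟨ℓ * b.1, ℓ * b.2⟩ : ℂ) ∈ sq ℓ b := by
    refine ⟨?_, ?_, ?_, ?_⟩ <;> simp only <;> nlinarith
  have h1 := dist_sq3 hℓ h0 hz
  have h2 := dist_le_of_near hℓ hb h0 (mem_sq_blk hℓ p)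
  have h3 := dist_triangle z (⟨ℓ * b.1, ℓ * b.2⟩ : ℂ) p
  have h4 := dist_comm z (⟨ℓ * b.1, ℓ * b.2⟩ : ℂ)
  linarith

/-- moving a little does not change the component -/
theorem comp_move (hℓ : 0 < ℓ) {b0 : Pt} {p q : ℂ} (hp : Metric.ball p (10 * ℓ) ⊆ Ω)
    (hpq : dist p q < ℓ) (hpA : blk ℓ p ∈ Comp (Gd ℓ Ω) b0) :
    blk ℓ q ∈ Comp (Gd ℓ Ω) b0 := by
  have hn := blk_near hℓ hpq
  obtain ⟨n1, n2⟩ := hn
  rw [abs_le] at n1 n2
  obtain ⟨⟨x, y⟩, hxy⟩ : ∃ b, blk ℓ p = b := ⟨_, rfl⟩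
  obtain ⟨⟨x', y'⟩, hxy'⟩ : ∃ b, blk ℓ q = b := ⟨_, rfl⟩
  rw [hxy, hxy'] at n1 n2
  simp only at n1 n2
  have g1 : (x, y) ∈ Gd ℓ Ω := near_gd hℓ hp (by
    rw [hxy]
    constructor <;> simp)
  have g2 : (x', y) ∈ Gd ℓ Ω := near_gd hℓ hp (by
    rw [hxy]
    constructor <;> simp only [abs_le] <;> constructor <;> omega)
  have g3 : (x', y') ∈ Gd ℓ Ω := near_gd hℓ hp (by
    rw [hxy]
    constructor <;> simp only [abs_le] <;> constructor <;> omega)
  rw [hxy] at hpA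
  rw [hxy']
  have s1 : (x', y) ∈ Comp (Gd ℓ Ω) b0 := by
    rcases eq_or_ne x x' with rfl | hne
    · exact hpA
    · exact comp_adj hpA (adj_row (by omega) (by omega) hne) g1 g2
  rcases eq_or_ne y y' with rfl | hne
  · exact s1
  · exact comp_adj s1 (adj_col (by omega) (by omega) hne) g2 g3

/-- a connected set deep inside `Ω` is in one component -/
theorem comp_preconnected (hℓ : 0 < ℓ) {b0 : Pt} {D : Set ℂ} (hD : IsPreconnected D)
    (hball : ∀ p ∈ D, Metric.ball p (10 * ℓ) ⊆ Ω) {p0 : ℂ} (hp0 : p0 ∈ D)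
    (h0 : blk ℓ p0 ∈ Comp (Gd ℓ Ω) b0) : ∀ p ∈ D, blk ℓ p ∈ Comp (Gd ℓ Ω) b0 := by
  set A := Comp (Gd ℓ Ω) b0 with hA
  set U : Set ℂ := ⋃ p ∈ {p | p ∈ D ∧ blk ℓ p ∈ A}, Metric.ball p (ℓ / 2) with hU
  set V : Set ℂ := ⋃ p ∈ {p | p ∈ D ∧ blk ℓ p ∉ A}, Metric.ball p (ℓ / 2) with hV
  have hUo : IsOpen U := isOpen_biUnion fun _ _ => Metric.isOpen_ball
  have hVo : IsOpen V := isOpen_biUnion fun _ _ => Metric.isOpen_ball
  have hcov : D ⊆ U ∪ V := by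
    intro p hp
    by_cases h : blk ℓ p ∈ A
    · exact Or.inl (Set.mem_biUnion (show p ∈ {p | p ∈ D ∧ blk ℓ p ∈ A} from ⟨hp, h⟩)
        (Metric.mem_ball_self (by positivity)))
    · exact Or.inr (Set.mem_biUnion (show p ∈ {p | p ∈ D ∧ blk ℓ p ∉ A} from ⟨hp, h⟩)
        (Metric.mem_ball_self (by positivity)))
  have hdisj : Disjoint U V := by
    rw [Set.disjoint_left]
    intro x hxU hxV
    simp only [hU, hV, Set.mem_iUnion] at hxU hxV
    obtain ⟨p, ⟨hp, hpA⟩, hxp⟩ := hxU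
    obtain ⟨q, ⟨hq, hqA⟩, hxq⟩ := hxV
    apply hqA
    refine comp_move hℓ (hball p hp) ?_ hpA
    have h1 := dist_triangle p x q
    rw [Metric.mem_ball] at hxp hxq
    rw [dist_comm p x] at h1
    linarith
  have hpU : p0 ∈ U := Set.mem_biUnion (show p0 ∈ {p | p ∈ D ∧ blk ℓ p ∈ A} from ⟨hp0, h0⟩)
    (Metric.mem_ball_self (by positivity))
  have hsub := hD.subset_left_of_subset_union hUo hVo hdisj hcov ⟨p0, hp0, hpU⟩
  intro p hp
  have h1 := hsub hp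
  simp only [hU, Set.mem_iUnion] at h1
  obtain ⟨q, ⟨hq, hqA⟩, hpq⟩ := h1
  refine comp_move hℓ (hball q hq) ?_ hqA
  rw [Metric.mem_ball, dist_comm] at hpq
  linarith

/-- **The polygon.** -/
theorem exists_poly (ho : IsOpen Ω) (hbd : Bornology.IsBounded Ω) (hsc : SimplyConnectedSpace Ω)
    {z0 : ℂ} (hℓ : 0 < ℓ) (hz0 : Metric.ball z0 (10 * ℓ) ⊆ Ω) :
    ∃ γ : LatCycle, reg (ℓ / 3) {f | γ.inside f} ⊆ Ω ∧
      (∀ D : Set ℂ, IsPreconnected D → z0 ∈ D → (∀ p ∈ D, Metric.ball p (20 * ℓ) ⊆ Ω) →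
        D ⊆ interior (reg (ℓ / 3) {f | γ.inside f})) ∧
      ∀ x ∈ frontier (reg (ℓ / 3) {f | γ.inside f}), ∃ y, y ∉ Ω ∧ dist x y < 40 * ℓ := by
  set b0 := blk ℓ z0 with hb0
  set A := Comp (Gd ℓ Ω) b0 with hA
  have hb0G : b0 ∈ Gd ℓ Ω := near_gd hℓ hz0 (by constructor <;> simp [hb0])
  have hAG : A ⊆ Gd ℓ Ω := comp_sub hb0G
  have hAf : A.Finite := (gd_finite hℓ hbd).subset hAG
  have hb0A : b0 ∈ A := Cn.refl b0
  obtain ⟨γ, hγ⟩ := ref_cycle (A := Fill A) (fill_finite hAf) ⟨b0, sub_fill hb0A⟩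
    (fun f hf g hg => fill_comp_conn hf hg) (fun f hf M => fill_compl hf M)
  have hset : {f | γ.inside f} = Ref (Fill A) := Set.ext hγ
  refine ⟨γ, ?_, ?_, ?_⟩
  · rw [hset]
    exact ref_sub hℓ hAG ho hbd hsc
  · rw [hset]
    intro D hD hzD hball p hp
    have h1 : ∀ q ∈ Metric.ball p ℓ, blk ℓ q ∈ A := by
      have hpA : blk ℓ p ∈ A := comp_preconnected hℓ hD (fun q hq => (Metric.ball_subset_ball
        (by linarith)).trans (hball q hq)) hzD hb0A p hp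
      refine comp_preconnected hℓ (convex_ball p ℓ).isPreconnected (fun q hq => ?_)
        (Metric.mem_ball_self hℓ) hpA
      refine Set.Subset.trans ?_ (hball p hp)
      intro w hw
      rw [Metric.mem_ball] at hw hq ⊢
      have := dist_triangle w q p
      linarith
    rw [mem_interior_iff_mem_nhds]
    filter_upwards [Metric.ball_mem_nhds p hℓ] with q hq
    exact reg_sub hℓ _ ⟨_, sub_fill (h1 q hq), mem_sq_blk hℓ q⟩
  · rw [hset]
    intro x hx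
    by_contra hcon
    push Not at hcon
    have hball : Metric.ball x (40 * ℓ) ⊆ Ω := by
      intro y hy
      by_contra hyΩ
      have := hcon y hyΩ
      rw [Metric.mem_ball, dist_comm] at hy
      linarith
    have hfin := ref_finite (fill_finite hAf)
    have hxR : x ∈ reg (ℓ / 3) (Ref (Fill A)) := (isClosed_reg _ hfin).frontier_subset hx
    have hxi : x ∉ interior (reg (ℓ / 3) (Ref (Fill A))) := by
      rw [frontier, Set.mem_sdiff] at hx
      exact hx.2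
    obtain ⟨g, hg, hxg⟩ := exists_off (show 0 < ℓ / 3 by positivity) hxi
    obtain ⟨f, hf, hxf⟩ := hxR
    have hxg' := sq_third hℓ g hxg
    have hxf' := sq_third hℓ f hxf
    have hgF : (g.1 / 3, g.2 / 3) ∉ Fill A := fun h => hg (ref_of_blk h)
    obtain ⟨a, ha, hn⟩ : ∃ a ∈ A, Near a (f.1 / 3, f.2 / 3) := by
      by_cases hb : (f.1 / 3, f.2 / 3) ∈ Fill A
      · obtain ⟨a, ha, h1, -⟩ := exists_comp hb hgF (near_of_mem hℓ hxf' hxg')
        exact ⟨a, ha, h1⟩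
      · exact corner_comp hf hb
    -- a point of the square `a`
    set p0 : ℂ := ⟨ℓ * a.1 + ℓ / 2, ℓ * a.2 + ℓ / 2⟩ with hp0
    have hfl : ∀ k : ℤ, ⌊(ℓ * k + ℓ / 2) / ℓ⌋ = k := by
      intro k
      rw [Int.floor_eq_iff]
      constructor
      · rw [le_div_iff₀ hℓ]; linarith
      · rw [div_lt_iff₀ hℓ]; linarith
    have hblk : blk ℓ p0 = a := by
      unfold blk
      rw [hp0]
      simp only [hfl]
    have hd : dist p0 x ≤ 4 * ℓ := by
      have h1 : p0 ∈ sq ℓ a := by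
        rw [← hblk]
        exact mem_sq_blk hℓ p0
      exact dist_le_of_near hℓ hn h1 hxf'
    have hD := comp_preconnected (b0 := b0) hℓ (convex_ball x (5 * ℓ)).isPreconnected
      (fun q hq => by
        refine Set.Subset.trans ?_ hball
        intro w hw
        rw [Metric.mem_ball] at hw hq ⊢
        have := dist_triangle w q x
        linarith) (p0 := p0) (by rw [Metric.mem_ball]; linarith) (by rw [hblk]; exact ha)
    apply hxi
    rw [mem_interior_iff_mem_nhds]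
    filter_upwards [Metric.ball_mem_nhds x (show 0 < 5 * ℓ by positivity)] with q hq
    exact reg_sub hℓ _ ⟨_, sub_fill (hD q hq), mem_sq_blk hℓ q⟩

end Vale.Agent.P155.X877
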